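import Vale.Agent.P219.Rigid.Level
import Vale.Agent.P219.Bend.Defs

/-!
# P219: an inequality against a profile passes from sets to competitors
-/

noncomputable section

open MeasureTheory Set Filter Topology Matrix
open scoped ENNReal

namespace Vale.Agent.P219.CH.Relax.Rigid

open CH.Rigid (stp contDiff_stp flux perimeterLE_level lintegral_dev_le lintegral_deriv_stp_le)

variable {n : ℕ} {G : (Fin n → ℝ) → Matrix (Fin n) (Fin n) ℝ}
  {D : (Fin n → ℝ) → (Fin n → ℝ) → ℝ}

/-- An inequality against a profile passes to competitors, with the gap as error. -/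
theorem level_profile (h : IsCH G D) {Φ hs : ℝ → ℝ} (hΦ : Bend.IsProfile Φ hs)
    (hset : ∀ (Ω : Set (Fin n → ℝ)) (A : ℝ), MeasurableSet Ω → Bornology.IsBounded Ω →
      PerimeterLE G Ω A → Φ (volG G Ω) ≤ A)
    {K : Set (Fin n → ℝ)} (hK : IsCompact K) {u : (Fin n → ℝ) → ℝ} (hu : Comp K u)
    (hV : 0 < vol G u) :
    Φ (vol G u) ≤ per G u + 2 * (Φ (vol G u) / vol G u) * gap G u := by
  obtain ⟨V, hVd⟩ : ∃ V, V = vol G u := ⟨_, rfl⟩
  rw [← hVd] at hV ⊢
  have hper := h.per_nonneg u
  have hgap := h.gap_nonneg (G := G) hu.2.2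
  have hΦ0 : 0 ≤ Φ V := by
    have := hΦ.mono (mem_Ici.2 le_rfl) (mem_Ici.2 hV.le) hV.le
    rwa [hΦ.zero] at this
  have hp : 0 ≤ Φ V / V := div_nonneg hΦ0 hV.le
  set If : ℝ → ℝ≥0∞ := fun t => liminf (fun k => ∫⁻ y, flux G u k t y) atTop
  set J : ℝ → ℝ≥0∞ := fun t => ∫⁻ y,
    ENNReal.ofReal (|(if t < u y then (1 : ℝ) else 0) - u y| * dens G y)
  have hfm : ∀ k, Measurable fun z : ℝ × (Fin n → ℝ) => flux G u k z.1 z.2 := fun k =>
    (((contDiff_stp k).continuous_deriv_one.comp ((hu.1.continuous.comp continuous_snd).sub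
      continuous_fst)).measurable.ennreal_ofReal).mul
        (((h.continuous_conorm_cd hu.1).mul h.continuous_dens).comp continuous_snd).measurable.ennreal_ofReal
  have hIfm : Measurable If := Measurable.liminf fun k => (hfm k).lintegral_prod_right'
  have hJm : Measurable fun z : ℝ × (Fin n → ℝ) =>
      ENNReal.ofReal (|(if z.1 < u z.2 then (1 : ℝ) else 0) - u z.2| * dens G z.2) :=
    ((((Measurable.ite (measurableSet_lt measurable_fst (hu.1.continuous.measurable.comp measurable_snd))
      measurable_const measurable_const).sub (hu.1.continuous.measurable.comp measurable_snd)).abs).mul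
        (h.continuous_dens.measurable.comp measurable_snd)).ennreal_ofReal
  have hpt : ∀ t ∈ Ioo (0 : ℝ) 1, ENNReal.ofReal (Φ V) ≤
      If t + ENNReal.ofReal ((Φ V / V)) * J t := by
    intro t ht
    rcases eq_or_ne (If t) ∞ with he | he
    · simp [he]
    set S : Set (Fin n → ℝ) := {y | t < u y}
    have hSK : S ⊆ K := fun y hy => hu.2.1 (subset_tsupport _ (ne_of_gt (ht.1.trans hy)))
    have hSm : MeasurableSet S := measurableSet_lt measurable_const hu.1.continuous.measurable
    have hsharp : Φ (volG G S) ≤ (If t).toReal := by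
      refine le_of_forall_pos_le_add fun ε hε => hset S _ hSm (hK.isBounded.subset hSK)
        (perimeterLE_level h hK hu ht.1 ?_)
      exact (ENNReal.lt_ofReal_iff_toReal_lt he).2 (by linarith)
    have hSi : Integrable (S.indicator (dens G)) :=
      ((h.continuous_dens.continuousOn.integrableOn_compact hK).mono_set hSK).integrable_indicator hSm
    have hfi : Integrable fun y => |(if t < u y then (1 : ℝ) else 0) - u y| * dens G y := by
      refine ((hSi.sub (hu.integrable hK h.continuous_dens)).abs).congr
        (Eventually.of_forall fun y => ?_)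
      by_cases hy : t < u y
      · simp only [S, Pi.sub_apply, indicator_of_mem (show y ∈ {y | t < u y} from hy), if_pos hy]
        rw [show dens G y - u y * dens G y = (1 - u y) * dens G y by ring, abs_mul,
          abs_of_pos (h.dens_pos y)]
      · simp only [S, Pi.sub_apply, indicator_of_notMem (show y ∉ {y | t < u y} from hy), if_neg hy]
        rw [show (0 : ℝ) - u y * dens G y = (0 - u y) * dens G y by ring, abs_mul,
          abs_of_pos (h.dens_pos y)]
    have hJ : |V - volG G S| ≤ ∫ y, |(if t < u y then (1 : ℝ) else 0) - u y| * dens G y := by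
      rw [hVd, vol, volG, ← integral_indicator hSm,
        ← integral_sub (hu.integrable hK h.continuous_dens) hSi]
      refine abs_integral_le_integral_abs.trans (le_of_eq (integral_congr_ae
        (Eventually.of_forall fun y => ?_)))
      by_cases hy : t < u y
      · simp only [S, indicator_of_mem (show y ∈ {y | t < u y} from hy), if_pos hy]
        rw [show u y * dens G y - dens G y = (u y - 1) * dens G y by ring, abs_mul, abs_sub_comm,
          abs_of_pos (h.dens_pos y)]
      · simp [S, hy, abs_mul, abs_of_pos (h.dens_pos y)]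
    have hW : 0 ≤ volG G S := setIntegral_nonneg hSm fun y _ => (h.dens_pos y).le
    have h1 : Φ V ≤ Φ (volG G S) + Φ V / V * |V - volG G S| := by
      rcases le_total V (volG G S) with hle | hle
      · exact le_add_of_le_of_nonneg (hΦ.mono (mem_Ici.2 hV.le) (mem_Ici.2 hW) hle)
          (mul_nonneg hp (abs_nonneg _))
      · rw [abs_of_nonneg (sub_nonneg.2 hle), mul_sub, div_mul_cancel₀ _ hV.ne']
        have h3 : Φ V / V * volG G S ≤ Φ (volG G S) := by
          rw [div_mul_eq_mul_div, div_le_iff₀ hV]
          linarith [hΦ.scale V (volG G S) hW hle]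
        linarith
    have h2 := mul_le_mul_of_nonneg_left hJ hp
    calc ENNReal.ofReal (Φ V) ≤ ENNReal.ofReal ((If t).toReal + (Φ V / V) *
          ∫ y, |(if t < u y then (1 : ℝ) else 0) - u y| * dens G y) :=
          ENNReal.ofReal_le_ofReal (by linarith)
      _ ≤ _ := by
          refine ENNReal.ofReal_add_le.trans (add_le_add (ENNReal.ofReal_toReal_le) (le_of_eq ?_))
          rw [ENNReal.ofReal_mul hp, ofReal_integral_eq_lintegral_ofReal hfi
            (Eventually.of_forall fun y => mul_nonneg (abs_nonneg _) (h.dens_pos y).le)]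
  have hint := setLIntegral_mono' (μ := (volume : Measure ℝ)) measurableSet_Ioo hpt
  rw [lintegral_const, Measure.restrict_apply_univ, Real.volume_Ioo, sub_zero, ENNReal.ofReal_one,
    mul_one, lintegral_add_left hIfm, lintegral_const_mul' _ _ ENNReal.ofReal_ne_top] at hint
  have hI : ∫⁻ t in Ioo (0 : ℝ) 1, If t ≤ ENNReal.ofReal (per G u) := by
    refine (lintegral_liminf_le fun k => (hfm k).lintegral_prod_right').trans ?_
    refine liminf_le_of_frequently_le' (Frequently.of_forall fun k => ?_)
    rw [lintegral_lintegral_swap (hfm k).aemeasurable, per, ofReal_integral_eq_lintegral_ofReal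
      (by simpa using h.integrable_mul_conorm hK hu (continuous_const (y := (1 : ℝ))))
      (Eventually.of_forall fun y => mul_nonneg (conorm_nonneg _ _) (h.dens_pos y).le)]
    refine lintegral_mono fun y => ?_
    simp only [flux]
    rw [lintegral_mul_const' _ _ ENNReal.ofReal_ne_top]
    exact mul_le_of_le_one_left' (lintegral_deriv_stp_le k (u y))
  have hJ : ∫⁻ t in Ioo (0 : ℝ) 1, J t ≤ ENNReal.ofReal (2 * gap G u) := by
    rw [lintegral_lintegral_swap hJm.aemeasurable, gap, ← integral_const_mul,
      ofReal_integral_eq_lintegral_ofReal ((h.integrable_gap hK hu).const_mul 2)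
        (Eventually.of_forall fun y => mul_nonneg zero_le_two (mul_nonneg (mul_nonneg (hu.2.2 y).1
          (by linarith [(hu.2.2 y).2])) (h.dens_pos y).le))]
    refine lintegral_mono fun y => ?_
    simp only [ENNReal.ofReal_mul (abs_nonneg _)]
    rw [lintegral_mul_const' _ _ ENNReal.ofReal_ne_top,
      show 2 * (u y * (1 - u y) * dens G y) = 2 * (u y * (1 - u y)) * dens G y by ring,
      ENNReal.ofReal_mul (mul_nonneg zero_le_two
        (mul_nonneg (hu.2.2 y).1 (by linarith [(hu.2.2 y).2])))]
    exact mul_le_mul' (lintegral_dev_le (hu.2.2 y)) le_rfl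
  have hfin := hint.trans (add_le_add hI (mul_le_mul' le_rfl hJ))
  rw [← ENNReal.ofReal_mul hp, ← ENNReal.ofReal_add hper (by positivity),
    ENNReal.ofReal_le_ofReal_iff (by positivity)] at hfin
  linarith

end Vale.Agent.P219.CH.Relax.Rigid
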