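import Vale.Agent.P219.Relax.Rigid.Sphere
import Vale.Agent.P219.Relax.Strict.Int

/-!
# P219: strict relaxed certificates

A strict certificate stays one when a slack `kap`, zero only on the contact (see `Contact`) of the model sphere with
its chords, is taken off the symmetrised kernel up to `ε`.
-/

noncomputable section

open MeasureTheory Set Filter Topology Matrix

namespace Vale.Agent.P219.CH.Relax.Rigid

variable {n : ℕ}

/-- The symmetrised kernel less the slack. -/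
def cutK (n : ℕ) (ρ ε : ℝ) (w : ℝ × ℝ → ℝ) (kap : ℝ × ℝ × ℝ → ℝ) (q : ℝ × ℝ × ℝ) : ℝ :=
  sym n ρ w q.1 q.2.1 q.2.2 - max (kap q - ε) 0

/-- A strict certificate against the ball of radius `ρ` in curvature `-1`. -/
structure StrictAt (n : ℕ) [NeZero n] (ρ : ℝ) (a : ℝ → ℝ) (β : ℝ) (kap : ℝ × ℝ × ℝ → ℝ) :
    Prop where
  beta_nonneg : 0 ≤ β
  measurable_a : Measurable a
  a_nonpos : ∀ c ∈ Icc (0 : ℝ) 1, a c ≤ 0
  a_bounded : ∃ B, ∀ c ∈ Icc (0 : ℝ) 1, -B ≤ a c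
  value : Real.sinh ρ ^ (2 * (n - 1)) + Gen.cmean n (fun c => -a c) * Real.sinh ρ ^ (n - 1) ≤
    β * ∫ t in (0 : ℝ)..ρ, Real.sinh t ^ (n - 1)
  slack : Contact ρ kap
  weight : ∀ ε T : ℝ, 0 < ε → 0 < T → ∃ w : ℝ × ℝ → ℝ, ContDiff ℝ 1 w ∧
    (∀ p q, 0 ≤ p → q ^ 2 ≤ 2 * p → 0 < w (p, q)) ∧ GainOK n ρ ε T w ∧
    Strict.CritK ε T (cutK n ρ ε w kap) ∧
    Strict.LineK n a β ε T (cutK n ρ ε w kap)

/-- Strict certificates against every ball. -/
def StrictCert (n : ℕ) [NeZero n] : Prop :=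
  ∀ ρ : ℝ, 0 < ρ → ∃ (a : ℝ → ℝ) (β : ℝ) (kap : ℝ × ℝ × ℝ → ℝ), StrictAt n ρ a β kap

/-- Equality against curvature at most `-b ^ 2` only for model balls. -/
def RigidBend (n : ℕ) : Prop :=
  ∀ (G : (Fin n → ℝ) → Matrix (Fin n) (Fin n) ℝ) (D : (Fin n → ℝ) → (Fin n → ℝ) → ℝ), IsCH G D →
    ∀ b : ℝ, 0 < b → Bend.BendCH G D b →
    ∀ (Ω : Set (Fin n → ℝ)) (A : ℝ), MeasurableSet Ω → Bornology.IsBounded Ω →
      PerimeterLE G Ω A → 0 < volG G Ω →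
      ∀ r : ℝ, 0 ≤ r → Bend.unitBall n * modelVol n b r = volG G Ω →
        A ≤ Bend.unitBall n * modelArea n b r → IsometricH G b r Ω

end Vale.Agent.P219.CH.Relax.Rigid
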