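import Vale.Agent.P219.Bend.Jacobian

/-!
# P219: hyperbolic space in the coordinates of the hyperboloid

With `Q z w = w·w - b ^ 2 (z·w) ^ 2 / (1 + b ^ 2 z·z)` the metric of curvature `-b ^ 2` on all of
`Fin n → ℝ`, `radX` is the exponential at the origin and `boost η α` an isometry moving it.
-/

noncomputable section

open MeasureTheory Set Filter Topology Matrix

namespace Vale.Agent.P219.CH.Relax.Rigid

open Bend (csh cshd cshdd)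

variable {n : ℕ} {b α : ℝ} {η : Fin n → ℝ}

/-- The metric of the model. -/
def hypQ (b : ℝ) (z w : Fin n → ℝ) : ℝ :=
  w ⬝ᵥ w - b ^ 2 * (z ⬝ᵥ w) ^ 2 / (1 + b ^ 2 * (z ⬝ᵥ z))

/-- The exponential at the origin. -/
def radX (b : ℝ) (ζ : Fin n → ℝ) : Fin n → ℝ := (2 * cshd (b ^ 2 * (ζ ⬝ᵥ ζ))) • ζ

/-- The time coordinate, times `b`. -/
def timeC (b : ℝ) (z : Fin n → ℝ) : ℝ := Real.sqrt (1 + b ^ 2 * (z ⬝ᵥ z))

/-- The Lorentz boost along `η`. -/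
def boost (b : ℝ) (η : Fin n → ℝ) (α : ℝ) (z : Fin n → ℝ) : Fin n → ℝ :=
  z + ((Real.cosh α - 1) * (η ⬝ᵥ z) - Real.sinh α * timeC b z / b) • η

lemma dot_self_nonneg (z : Fin n → ℝ) : 0 ≤ z ⬝ᵥ z :=
  Finset.sum_nonneg fun i _ => mul_self_nonneg (z i)

lemma dot_self_pos {z : Fin n → ℝ} (hz : z ≠ 0) : 0 < z ⬝ᵥ z :=
  (dot_self_nonneg z).lt_of_ne fun h => hz (dotProduct_self_eq_zero.1 h.symm)

lemma dot_sq_le (z w : Fin n → ℝ) : (z ⬝ᵥ w) ^ 2 ≤ (z ⬝ᵥ z) * (w ⬝ᵥ w) := by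
  simp only [dotProduct, ← sq]
  exact Finset.sum_mul_sq_le_sq_mul_sq _ _ _

lemma arg_pos (b : ℝ) (z : Fin n → ℝ) : 0 < 1 + b ^ 2 * (z ⬝ᵥ z) := by
  have := dot_self_nonneg z
  positivity

lemma timeC_pos (b : ℝ) (z : Fin n → ℝ) : 0 < timeC b z := Real.sqrt_pos.2 (arg_pos b z)

lemma timeC_sq (b : ℝ) (z : Fin n → ℝ) : timeC b z ^ 2 = 1 + b ^ 2 * (z ⬝ᵥ z) :=
  Real.sq_sqrt (arg_pos b z).le

lemma contDiff_timeC (b : ℝ) : ContDiff ℝ 1 (timeC (n := n) b) :=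
  (contDiff_const.add (contDiff_const.mul (ContDiff.sum fun i _ =>
    (contDiff_apply ℝ ℝ i).mul (contDiff_apply ℝ ℝ i)))).sqrt fun z => (arg_pos b z).ne'

lemma hasFDerivAt_dot_self (z : Fin n → ℝ) :
    HasFDerivAt (fun z : Fin n → ℝ => z ⬝ᵥ z)
      ((2 : ℝ) • ∑ i, z i • ContinuousLinearMap.proj (R := ℝ) (φ := fun _ : Fin n => ℝ) i) z := by
  have h := HasFDerivAt.fun_sum (u := (Finset.univ : Finset (Fin n))) fun i _ =>
    (hasFDerivAt_apply (𝕜 := ℝ) i z).mul (hasFDerivAt_apply i z)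
  refine h.congr_fderiv ?_
  ext w
  simp [Finset.mul_sum, ← two_mul]

lemma dot_proj_sum (z w : Fin n → ℝ) :
    (∑ i, z i • ContinuousLinearMap.proj (R := ℝ) (φ := fun _ : Fin n => ℝ) i) w = z ⬝ᵥ w := by
  simp [dotProduct]

lemma hasFDerivAt_timeC (z : Fin n → ℝ) :
    ∃ L : (Fin n → ℝ) →L[ℝ] ℝ, HasFDerivAt (timeC b) L z ∧
      ∀ w, timeC b z * L w = b ^ 2 * (z ⬝ᵥ w) := by
  have h := ((hasFDerivAt_dot_self z).const_mul (b ^ 2)).const_add 1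
  refine ⟨_, h.sqrt (arg_pos b z).ne', fun w => ?_⟩
  have ht := (timeC_pos b z).ne'
  simp only [_root_.smul_apply, smul_eq_mul, dot_proj_sum]
  rw [show Real.sqrt (1 + b ^ 2 * (z ⬝ᵥ z)) = timeC b z from rfl]
  field_simp

/-! ## The exponential -/

lemma contDiff_radX (b : ℝ) : ContDiff ℝ 1 (radX (n := n) b) :=
  (contDiff_const.mul (Bend.contDiff_cshd.comp (contDiff_const.mul (ContDiff.sum fun i _ =>
    (contDiff_apply ℝ ℝ i).mul (contDiff_apply ℝ ℝ i))))).smul contDiff_id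

lemma radX_facts (b : ℝ) (ζ : Fin n → ℝ) :
    timeC b (radX b ζ) = csh (b ^ 2 * (ζ ⬝ᵥ ζ)) ∧
      0 < csh (b ^ 2 * (ζ ⬝ᵥ ζ)) ∧ 0 < cshd (b ^ 2 * (ζ ⬝ᵥ ζ)) ∧
      (2 * cshd (b ^ 2 * (ζ ⬝ᵥ ζ))) ^ 2 * (b ^ 2 * (ζ ⬝ᵥ ζ)) =
        csh (b ^ 2 * (ζ ⬝ᵥ ζ)) ^ 2 - 1 ∧
      2 * cshd (b ^ 2 * (ζ ⬝ᵥ ζ)) + 4 * (b ^ 2 * (ζ ⬝ᵥ ζ)) * cshdd (b ^ 2 * (ζ ⬝ᵥ ζ)) =
        csh (b ^ 2 * (ζ ⬝ᵥ ζ)) := by
  have hX : 0 ≤ b ^ 2 * (ζ ⬝ᵥ ζ) := mul_nonneg (sq_nonneg b) (dot_self_nonneg ζ)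
  obtain ⟨a, -, ha⟩ : ∃ a, 0 ≤ a ∧ b ^ 2 * (ζ ⬝ᵥ ζ) = a ^ 2 :=
    ⟨Real.sqrt _, Real.sqrt_nonneg _, (Real.sq_sqrt hX).symm⟩
  have e1 : (2 * cshd (a ^ 2)) ^ 2 * a ^ 2 = csh (a ^ 2) ^ 2 - 1 := by
    rw [show (2 * cshd (a ^ 2)) ^ 2 * a ^ 2 = (2 * a * cshd (a ^ 2)) ^ 2 by ring,
      Bend.two_mul_cshd_sq, Bend.csh_sq]
    linarith [Real.cosh_sq a]
  refine ⟨?_, Bend.csh_pos hX, Bend.cshd_pos hX, ha ▸ e1, ha ▸ Bend.csh_ode a⟩
  rw [timeC, radX, smul_dotProduct, dotProduct_smul, smul_eq_mul, smul_eq_mul]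
  conv_rhs => rw [← Real.sqrt_sq (Bend.csh_pos hX).le]
  congr 1
  rw [← ha] at e1
  linear_combination e1

lemma radX_deriv (b : ℝ) (ζ w : Fin n → ℝ) :
    fderiv ℝ (radX b) ζ w = (2 * cshd (b ^ 2 * (ζ ⬝ᵥ ζ))) • w +
      (4 * b ^ 2 * cshdd (b ^ 2 * (ζ ⬝ᵥ ζ)) * (ζ ⬝ᵥ w)) • ζ := by
  have h1 := (Bend.hasDerivAt_cshd (b ^ 2 * (ζ ⬝ᵥ ζ))).comp_hasFDerivAt ζ
    ((hasFDerivAt_dot_self ζ).const_mul (b ^ 2))
  have h : HasFDerivAt (radX b) _ ζ := (h1.const_mul 2).smul (hasFDerivAt_id ζ)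
  rw [h.fderiv]
  simp only [_root_.add_apply, _root_.smul_apply,
    ContinuousLinearMap.smulRight_apply, ContinuousLinearMap.id_apply, smul_eq_mul, dot_proj_sum,
    Function.comp_apply]
  congr 2
  ring

/-- The exponential turns the model metric into its expression in normal coordinates. -/
lemma hypQ_radX (ζ w : Fin n → ℝ) :
    (ζ ⬝ᵥ ζ) * hypQ b (radX b ζ) (fderiv ℝ (radX b) ζ w) =
      (ζ ⬝ᵥ w) ^ 2 * (1 - (2 * cshd (b ^ 2 * (ζ ⬝ᵥ ζ))) ^ 2) +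
        (2 * cshd (b ^ 2 * (ζ ⬝ᵥ ζ))) ^ 2 * ((ζ ⬝ᵥ ζ) * (w ⬝ᵥ w)) := by
  obtain ⟨hC, hC0, -, e1, e2⟩ := radX_facts b ζ
  obtain ⟨N, hN⟩ : ∃ N, N = ζ ⬝ᵥ ζ := ⟨_, rfl⟩
  obtain ⟨S, hS⟩ : ∃ S, S = 2 * cshd (b ^ 2 * N) := ⟨_, rfl⟩
  obtain ⟨C, hCd⟩ : ∃ C, C = csh (b ^ 2 * N) := ⟨_, rfl⟩
  rw [← hN] at hC hC0 e1 e2 ⊢
  rw [← hS, ← hCd] at e1 e2
  rw [← hS]
  rw [← hCd] at hC hC0
  obtain ⟨a, ha⟩ : ∃ a, a = ζ ⬝ᵥ w := ⟨_, rfl⟩
  obtain ⟨S', hS'⟩ : ∃ S', S' = 4 * b ^ 2 * cshdd (b ^ 2 * N) := ⟨_, rfl⟩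
  have e3 : S + N * S' = C := by rw [hS']; linarith
  have hd : 1 + b ^ 2 * (radX b ζ ⬝ᵥ radX b ζ) = C ^ 2 := by rw [← timeC_sq, hC]
  rw [hypQ, hd, radX_deriv, radX, ← hN, ← hS, ← ha, ← hS']
  simp only [dotProduct_add, add_dotProduct, dotProduct_smul, smul_dotProduct, smul_eq_mul,
    dotProduct_comm w ζ, ← hN, ← ha]
  have e4 : S * a + S' * a * N = C * a := by rw [← e3]; ring
  rw [show S * (S * a) + S' * a * (S * N) = S * (C * a) by rw [← e4]; ring]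
  have := hC0.ne'
  field_simp
  linear_combination a ^ 2 * (S' * N + S + C) * e3 - a ^ 2 * e1

lemma radX_injective (hb : b ≠ 0) : Function.Injective (radX (n := n) b) := by
  intro p q h
  have key : ∀ ζ : Fin n → ℝ, Real.sinh (|b| * Real.sqrt (ζ ⬝ᵥ ζ)) ^ 2 =
      b ^ 2 * (radX b ζ ⬝ᵥ radX b ζ) := fun ζ => by
    have e : b ^ 2 * (ζ ⬝ᵥ ζ) = (|b| * Real.sqrt (ζ ⬝ᵥ ζ)) ^ 2 := by
      rw [mul_pow, sq_abs, Real.sq_sqrt (dot_self_nonneg ζ)]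
    rw [radX, smul_dotProduct, dotProduct_smul, smul_eq_mul, smul_eq_mul,
      ← Bend.two_mul_cshd_sq, ← e]
    linear_combination (-(4 * cshd (b ^ 2 * (ζ ⬝ᵥ ζ)) ^ 2)) * e
  have hs : Real.sinh (|b| * Real.sqrt (p ⬝ᵥ p)) = Real.sinh (|b| * Real.sqrt (q ⬝ᵥ q)) :=
    (pow_left_inj₀ (Real.sinh_nonneg_iff.2 (by positivity)) (Real.sinh_nonneg_iff.2 (by positivity))
      two_ne_zero).1 (by rw [key, key, h])
  have hN : p ⬝ᵥ p = q ⬝ᵥ q :=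
    (Real.sqrt_inj (dot_self_nonneg p) (dot_self_nonneg q)).1
      (mul_left_cancel₀ (abs_ne_zero.2 hb) (Real.sinh_injective hs))
  rw [radX, radX, hN] at h
  exact smul_right_injective (Fin n → ℝ) (mul_pos two_pos
    (Bend.cshd_pos (mul_nonneg (sq_nonneg b) (dot_self_nonneg q)))).ne' h

lemma radX_surjective (hb : b ≠ 0) : Function.Surjective (radX (n := n) b) := by
  intro z
  rcases eq_or_ne z 0 with rfl | hz
  · exact ⟨0, by simp [radX]⟩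
  obtain ⟨N, hN⟩ : ∃ N, N = |b| * Real.sqrt (z ⬝ᵥ z) := ⟨_, rfl⟩
  have hN0 : 0 < N := hN ▸ mul_pos (abs_pos.2 hb) (Real.sqrt_pos.2 (dot_self_pos hz))
  have ha : 0 < Real.arsinh N := Real.arsinh_pos_iff.2 hN0
  refine ⟨(Real.arsinh N / N) • z, ?_⟩
  have e : b ^ 2 * ((Real.arsinh N / N) • z ⬝ᵥ (Real.arsinh N / N) • z) = Real.arsinh N ^ 2 := by
    have hN2 : N ^ 2 = b ^ 2 * (z ⬝ᵥ z) := by
      rw [hN, mul_pow, sq_abs, Real.sq_sqrt (dot_self_nonneg z)]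
    rw [smul_dotProduct, dotProduct_smul, smul_eq_mul, smul_eq_mul]
    field_simp
    linear_combination (-1 : ℝ) * hN2
  rw [radX, e, smul_smul]
  have h2 := Bend.two_mul_cshd_sq (Real.arsinh N)
  rw [Real.sinh_arsinh] at h2
  rw [show 2 * cshd (Real.arsinh N ^ 2) * (Real.arsinh N / N) = 1 by
    field_simp; linarith, one_smul]

/-! ## The boost -/

lemma contDiff_boost (b : ℝ) (η : Fin n → ℝ) (α : ℝ) : ContDiff ℝ 1 (boost b η α) :=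
  contDiff_id.add (((contDiff_const.mul (ContDiff.sum fun i _ =>
    contDiff_const.mul (contDiff_apply ℝ ℝ i))).sub
      ((contDiff_const.mul (contDiff_timeC b)).div_const b)).smul contDiff_const)

lemma timeC_boost (hb : b ≠ 0) (hη : η ⬝ᵥ η = 1) (z : Fin n → ℝ) :
    timeC b (boost b η α z) =
      Real.cosh α * timeC b z - Real.sinh α * (b * (η ⬝ᵥ z)) := by
  have hC := timeC_pos b z
  have hP : |b * (η ⬝ᵥ z)| ≤ timeC b z := by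
    refine abs_le_of_sq_le_sq ?_ hC.le
    have h := dot_sq_le η z
    rw [hη, one_mul] at h
    rw [timeC_sq, mul_pow]
    linarith [mul_le_mul_of_nonneg_left h (sq_nonneg b)]
  have hnn : 0 ≤ Real.cosh α * timeC b z - Real.sinh α * (b * (η ⬝ᵥ z)) := by
    have h1 : |Real.sinh α| ≤ Real.cosh α :=
      abs_le.2 ⟨by linarith [Real.cosh_add_sinh α, Real.exp_pos α],
        (Real.sinh_lt_cosh α).le⟩
    have h2 := abs_mul (Real.sinh α) (b * (η ⬝ᵥ z))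
    have h3 := mul_le_mul h1 hP (abs_nonneg _) (Real.cosh_pos α).le
    linarith [le_abs_self (Real.sinh α * (b * (η ⬝ᵥ z)))]
  conv_rhs => rw [← Real.sqrt_sq hnn]
  rw [timeC, boost]
  congr 1
  have e1 := timeC_sq b z
  have e2 := Real.cosh_sq α
  simp only [dotProduct_add, add_dotProduct, dotProduct_smul, smul_dotProduct, smul_eq_mul, hη,
    dotProduct_comm z η]
  field_simp
  linear_combination (-1 : ℝ) * e1 + (b ^ 2 * (η ⬝ᵥ z) ^ 2 - timeC b z ^ 2) * e2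

lemma boost_boost (hb : b ≠ 0) (hη : η ⬝ᵥ η = 1) (z : Fin n → ℝ) :
    boost b η (-α) (boost b η α z) = z := by
  rw [boost, timeC_boost hb hη, boost, Real.cosh_neg, Real.sinh_neg]
  simp only [dotProduct_add, dotProduct_smul, smul_eq_mul, hη, add_assoc, ← add_smul]
  convert add_zero z using 2
  rw [← zero_smul ℝ η]
  congr 1
  field_simp
  linear_combination (b * (η ⬝ᵥ z)) * Real.cosh_sq α

lemma boost_bijective (hb : b ≠ 0) (hη : η ⬝ᵥ η = 1) : Function.Bijective (boost b η α) :=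
  ⟨Function.LeftInverse.injective (g := boost b η (-α)) (boost_boost hb hη),
    Function.RightInverse.surjective (g := boost b η (-α)) fun z => by
      simpa using boost_boost (α := -α) hb hη z⟩

/-- The boost is an isometry. -/
lemma hypQ_boost (hb : b ≠ 0) (hη : η ⬝ᵥ η = 1) (z w : Fin n → ℝ) :
    hypQ b (boost b η α z) (fderiv ℝ (boost b η α) z w) = hypQ b z w := by
  obtain ⟨L, hL, hLw⟩ := hasFDerivAt_timeC (b := b) z
  have hP : HasFDerivAt (fun z : Fin n → ℝ => η ⬝ᵥ z)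
      (∑ i, η i • ContinuousLinearMap.proj (R := ℝ) (φ := fun _ : Fin n => ℝ) i) z :=
    HasFDerivAt.fun_sum fun i _ => (hasFDerivAt_apply (𝕜 := ℝ) i z).const_mul (η i)
  have h : HasFDerivAt (boost b η α) _ z := (hasFDerivAt_id z).add
    (((hP.const_mul (Real.cosh α - 1)).sub
      ((hL.const_mul (Real.sinh α)).mul_const b⁻¹)).smul_const η)
  have hC := timeC_pos b z
  obtain ⟨C, hCd⟩ : ∃ C, C = timeC b z := ⟨_, rfl⟩
  obtain ⟨P, hPd⟩ : ∃ P, P = η ⬝ᵥ z := ⟨_, rfl⟩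
  obtain ⟨p, hp⟩ : ∃ p, p = η ⬝ᵥ w := ⟨_, rfl⟩
  obtain ⟨dC, hdC⟩ : ∃ dC, dC = L w := ⟨_, rfl⟩
  obtain ⟨ch, hch⟩ : ∃ ch, ch = Real.cosh α := ⟨_, rfl⟩
  obtain ⟨sh, hsh⟩ : ∃ sh, sh = Real.sinh α := ⟨_, rfl⟩
  have eC : C * dC = b ^ 2 * (z ⬝ᵥ w) := by rw [hCd, hdC, hLw]
  have e2 : ch ^ 2 = sh ^ 2 + 1 := by rw [hch, hsh, Real.cosh_sq]
  have hZ0 : 0 < ch * C - sh * (b * P) := by
    rw [hch, hsh, hCd, hPd, ← timeC_boost hb hη]; exact timeC_pos _ _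
  have eF : boost b η α z = z + ((ch - 1) * P - sh * C / b) • η := by
    rw [boost, hch, hsh, hCd, hPd]
  have eD : fderiv ℝ (boost b η α) z w = w + ((ch - 1) * p - sh * dC / b) • η := by
    rw [h.fderiv, hch, hsh, hdC, hp]
    simp only [_root_.add_apply, ContinuousLinearMap.id_apply,
      ContinuousLinearMap.smulRight_apply, _root_.sub_apply,
      _root_.smul_apply, smul_eq_mul, dot_proj_sum]
    congr 2
    ring
  rw [hypQ, hypQ, ← timeC_sq, ← timeC_sq, timeC_boost hb hη, eD, ← hch, ← hsh, ← hCd, ← hPd]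
  rw [eF]
  simp only [dotProduct_add, add_dotProduct, dotProduct_smul, smul_dotProduct, smul_eq_mul, hη,
    dotProduct_comm z η, dotProduct_comm w η, ← hPd, ← hp]
  obtain ⟨E, hE⟩ : ∃ E, E = z ⬝ᵥ w := ⟨_, rfl⟩
  rw [← hE] at eC ⊢
  have hdot : E + ((ch - 1) * P - sh * C / b) * p +
      ((ch - 1) * p - sh * dC / b) * (P + ((ch - 1) * P - sh * C / b) * 1) =
      (ch * C - sh * (b * P)) * (ch * dC - sh * b * p) / b ^ 2 := by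
    field_simp
    linear_combination (b ^ 2 * P * p - C * dC) * e2 - eC
  have hnorm : w ⬝ᵥ w + ((ch - 1) * p - sh * dC / b) * p +
      ((ch - 1) * p - sh * dC / b) * (p + ((ch - 1) * p - sh * dC / b) * 1) =
      w ⬝ᵥ w - dC ^ 2 / b ^ 2 + (ch * dC - sh * b * p) ^ 2 / b ^ 2 := by
    field_simp
    linear_combination (b ^ 2 * p ^ 2 - dC ^ 2) * e2
  rw [hdot, hnorm]
  have hC0 : C ≠ 0 := hCd ▸ hC.ne'
  have hZ := hZ0.ne'
  rw [show E = C * dC / b ^ 2 by rw [eC]; field_simp]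
  obtain ⟨Z, hZd⟩ : ∃ Z, Z = ch * C - sh * (b * P) := ⟨_, rfl⟩
  obtain ⟨Y, hY⟩ : ∃ Y, Y = ch * dC - sh * b * p := ⟨_, rfl⟩
  rw [← hZd] at hZ ⊢
  rw [← hY]
  field_simp
  ring

end Vale.Agent.P219.CH.Relax.Rigid
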