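import Vale.Agent.P219.Relax.Rigid.Slack
import Vale.Agent.P219.Relax.Rigid.Level
import Vale.Agent.P219.Relax.Volume
import Vale.Agent.P219.Rigid.Centre

/-!
# P219: at equality against curvature at most `-b ^ 2` the slack tends to zero

Competitors converging to a minimal set are almost minimisers against the model profile. Their rows
and the pair integral of the cut kernel leave only the slack, which tends to zero.
-/

noncomputable section

open MeasureTheory Set Filter Topology Matrix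
open scoped ENNReal

namespace Vale.Agent.P219.CH.Relax.Rigid

open Gen (mass radial cmean cmean_nonneg scaled conorm_dirCov_le dirCov)
open CH.Rigid (exists_close vol_gap_close)

variable {n : ℕ}

/-- The inequality against the model profile. -/
lemma profile_le [NeZero n] (hn : 2 ≤ n) (hC : Cert n)
    {G : (Fin n → ℝ) → Matrix (Fin n) (Fin n) ℝ} {D : (Fin n → ℝ) → (Fin n → ℝ) → ℝ}
    (h : IsCH G D) {b : ℝ} (hb : 0 < b) (hbend : Bend.BendCH G D b)
    (Ω : Set (Fin n → ℝ)) (A : ℝ) (hΩ : MeasurableSet Ω) (hΩb : Bornology.IsBounded Ω)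
    (hA : PerimeterLE G Ω A) : Bend.modelProfile n b 1 (volG G Ω) ≤ A := by
  obtain ⟨r, hr, hrv, hra⟩ := sharp_all_volumes n hn hC G D h hb hbend Ω A hΩ hΩb hA
  have hω := Bend.unitBall_pos (show 1 ≤ n by omega)
  rwa [Bend.modelProfile, ← hrv, mul_div_cancel_left₀ _ hω.ne',
    Bend.modelRad_modelVol (by omega) b hr, one_mul]

/-- At equality some competitors have vanishing weighted slack. -/
theorem deficitH [NeZero n] (hn : 2 ≤ n) (hC : Cert n)
    {G : (Fin n → ℝ) → Matrix (Fin n) (Fin n) ℝ} {D : (Fin n → ℝ) → (Fin n → ℝ) → ℝ}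
    (h : IsCH G D) {b : ℝ} (hb : 0 < b) (hbend : Bend.BendCH G D b)
    {Ω : Set (Fin n → ℝ)} {A : ℝ} (hΩ : MeasurableSet Ω) (hΩb : Bornology.IsBounded Ω)
    (hP : PerimeterLE G Ω A) (hV0 : 0 < volG G Ω) {r : ℝ} (hr : 0 < r)
    (hvol : Bend.unitBall n * modelVol n b r = volG G Ω)
    (hAA : A ≤ Bend.unitBall n * modelArea n b r)
    {a : ℝ → ℝ} {β : ℝ} {kap : ℝ × ℝ × ℝ → ℝ} (hK' : StrictAt n (b * r) a β kap) :
    ∃ (o : Fin n → ℝ) (Rd c : ℝ) (u : ℕ → (Fin n → ℝ) → ℝ),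
      CH.Rigid.Approx G D Ω o Rd u ∧ 0 < c ∧ (∀ k, c ≤ per G (u k)) ∧
      Tendsto (fun k => ∫⁻ x, (∫⁻ y, slackAt G D kap (u k) b x y *
        ENNReal.ofReal (ijacB G D b x y) ∂Sharp.pm G (u k)) ∂Sharp.pm G (u k)) atTop (𝓝 0) := by
  have hn1 : 1 ≤ n := by omega
  obtain ⟨S, v, hS, hv, hlim, hA⟩ := id hP
  obtain ⟨e, he⟩ := Six.exists_isExp h
  obtain ⟨hm0, hmrad, -⟩ := Gen.momentPin n hn
  obtain ⟨Mm, hMm⟩ : ∃ Mm, Mm = mass n := ⟨_, rfl⟩
  obtain ⟨Rr, hRr⟩ : ∃ Rr, Rr = radial n := ⟨_, rfl⟩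
  obtain ⟨ω, hω⟩ : ∃ ω, ω = Bend.unitBall n := ⟨_, rfl⟩
  rw [← hMm, ← hω, ← hRr] at hmrad
  rw [← hω] at hvol hAA
  have hω0 : 0 < ω := hω ▸ Bend.unitBall_pos hn1
  have hM0 : 0 < Mm := hMm ▸ hm0
  have hRr0 : 0 < Rr := pos_of_mul_pos_right (hmrad ▸ hM0) (by positivity)
  obtain ⟨E, hE⟩ : ∃ E, E = cmean n fun c => -a c := ⟨_, rfl⟩
  have hE0 : 0 ≤ E := hE ▸ cmean_nonneg hm0 fun c hc => by linarith [hK'.a_nonpos c hc]
  have hβ := hK'.beta_nonneg
  have hv' := hK'.value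
  rw [← hE] at hv'
  have hval := GenK.value_model (n := n) (b := b) (s := r) (ω := ω) (Rd := Rr) (E := E) (β := β)
    hb hω0.le hRr0.le hv'
  rw [← hmrad] at hval
  obtain ⟨bk, hbk⟩ : ∃ bk, bk = b ^ (n - 1) := ⟨_, rfl⟩
  rw [← hbk] at hval
  have hbk0 : 0 < bk := hbk ▸ pow_pos hb _
  obtain ⟨Φ, hΦd⟩ : ∃ Φ, Φ = Bend.modelProfile n b 1 := ⟨_, rfl⟩
  obtain ⟨hs, hsd⟩ : ∃ hs, hs = Bend.modelSlope n b 1 := ⟨_, rfl⟩
  have hΦ : Bend.IsProfile Φ hs := hΦd ▸ hsd ▸ Bend.modelPin n hn b 1 hb.le one_pos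
  have hsup : Supports Φ hs := hΦd ▸ hsd ▸ supports_model hn hb.le one_pos
  obtain ⟨V, hVd⟩ : ∃ V, V = volG G Ω := ⟨_, rfl⟩
  rw [← hVd] at hV0 hvol
  have hrad : Bend.modelRad n b (V / ω) = r := by
    rw [← hvol, mul_div_cancel_left₀ _ hω0.ne', Bend.modelRad_modelVol hn1 b hr.le]
  have eΦ : Φ V = ω * modelArea n b r := by
    rw [hΦd, Bend.modelProfile, ← hω, hrad, one_mul]
  have hΦV0 : 0 < Φ V := by
    rw [eΦ, modelArea]
    have := Bend.sn_pos b hr
    have : (0 : ℝ) < n := by exact_mod_cast hn1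
    positivity
  have hH : hs V = GenK.modelH n (b * r) * b := by
    rw [hsd, Bend.modelSlope, ← hω, hrad, GenK.modelH_mul hb, one_mul, mul_div_assoc]
  have hset : ∀ (W : Set (Fin n → ℝ)) (A' : ℝ), MeasurableSet W → Bornology.IsBounded W →
      PerimeterLE G W A' → Φ (volG G W) ≤ A' := fun W A' h1 h2 h3 =>
    hΦd ▸ profile_le hn hC h hb hbend W A' h1 h2 h3
  have hAeq : A = ω * modelArea n b r := by
    refine le_antisymm hAA ?_
    rw [← eΦ, hVd]
    exact hset Ω A hΩ hΩb hP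
  set o : Fin n → ℝ := 0
  obtain ⟨Rd, hRd, hSK, hΩK⟩ : ∃ Rd : ℝ, 0 < Rd ∧ S ⊆ {y | D o y ≤ Rd} ∧
      Ω ⊆ {y | D o y ≤ Rd} := by
    obtain ⟨B, hB⟩ := (hS.union hΩb.isCompact_closure).bddAbove_image
      ((h.contDiff_D o).continuous.continuousOn)
    exact ⟨max B 1, by positivity,
      fun y hy => (hB ⟨y, Or.inl hy, rfl⟩).trans (le_max_left _ _),
      fun y hy => (hB ⟨y, Or.inr (subset_closure hy), rfl⟩).trans (le_max_left _ _)⟩
  set K : Set (Fin n → ℝ) := {y | D o y ≤ Rd}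
  have hK : IsCompact K := h.proper o Rd
  obtain ⟨B, hB⟩ := hK.bddAbove_image h.continuous_dens.continuousOn
  have hB' : ∀ y ∈ K, dens G y ≤ B := fun y hy => hB ⟨y, hy, rfl⟩
  have hoK : o ∈ K := by show D o o ≤ Rd; rw [h.dist_self]; exact hRd.le
  have hB0 : 0 ≤ B := (h.dens_pos o).le.trans (hB' o hoK)
  have hA0 : 0 ≤ A := hAeq ▸ eΦ ▸ hΦV0.le
  have hex : ∀ j : ℕ, ∃ w, Comp K w ∧ per G w ≤ A + (1 / 2) ^ j ∧
      ∫ y, |w y - Ω.indicator 1 y| ≤ (1 / 2) ^ j := fun j =>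
    exists_close h hK hΩ hΩK hSK hv hlim hA (by positivity)
  choose w hw hwp hwi using hex
  have hgeo : Tendsto (fun j : ℕ => ((1 : ℝ) / 2) ^ j) atTop (𝓝 0) :=
    tendsto_pow_atTop_nhds_zero_of_lt_one (by norm_num) (by norm_num)
  have hBgeo : Tendsto (fun j : ℕ => B * ((1 : ℝ) / 2) ^ j) atTop (𝓝 0) := by
    simpa using hgeo.const_mul B
  have hwV : Tendsto (fun j => vol G (w j)) atTop (𝓝 V) := by
    rw [tendsto_iff_norm_sub_tendsto_zero]
    refine squeeze_zero (fun j => norm_nonneg _) (fun j => ?_) hBgeo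
    rw [Real.norm_eq_abs, hVd]
    exact (vol_gap_close h hK hΩ hΩK hB' (hw j)).1.trans (mul_le_mul_of_nonneg_left (hwi j) hB0)
  have hwg : Tendsto (fun j => gap G (w j)) atTop (𝓝 0) :=
    squeeze_zero (fun j => h.gap_nonneg (hw j).2.2) (fun j =>
      (vol_gap_close h hK hΩ hΩK hB' (hw j)).2.trans (mul_le_mul_of_nonneg_left (hwi j) hB0)) hBgeo
  have hcΦ : Tendsto (fun j => Φ (vol G (w j))) atTop (𝓝 (Φ V)) :=
    ((hΦ.cont.continuousAt (Ici_mem_nhds hV0)).tendsto).comp hwV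
  obtain ⟨M, hM⟩ : ∃ M, M = 2 * (Φ (V / 4) / (V / 4)) := ⟨_, rfl⟩
  have hM0' : 0 ≤ M := by
    have h1 := hΦ.mono (mem_Ici.2 le_rfl) (mem_Ici.2 (by linarith : 0 ≤ V / 4)) (by linarith)
    rw [hΦ.zero] at h1
    rw [hM]; positivity
  have hJ : ∀ u, Comp K u → V / 4 ≤ vol G u → 0 ≤ per G u - Φ (vol G u) + M * gap G u := by
    intro u hu hv4
    have hu0 : 0 < vol G u := by linarith
    have h2 : 2 * (Φ (vol G u) / vol G u) ≤ M := by
      rw [hM]
      refine mul_le_mul_of_nonneg_left ?_ zero_le_two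
      rw [div_le_div_iff₀ hu0 (by linarith)]
      linarith [hΦ.scale (vol G u) (V / 4) (by linarith) hv4]
    linarith [level_profile h hΦ hset hK hu hu0,
      mul_le_mul_of_nonneg_right h2 (h.gap_nonneg (G := G) hu.2.2)]
  obtain ⟨Bd, hBd⟩ := (hK.prod hK).bddAbove_image h.continuous_D.continuousOn
  obtain ⟨T, hT⟩ : ∃ T : ℝ, T = b * Real.sqrt (2 * max Bd 0) + 1 := ⟨_, rfl⟩
  have hT0 : 0 < T := by rw [hT]; positivity
  have hTb : ∀ x y, D o x ≤ Rd → D o y ≤ Rd → b * Real.sqrt (2 * D x y) ≤ T := fun x y hx hy => by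
    rw [hT]
    have := (hBd ⟨(x, y), ⟨hx, hy⟩, rfl⟩).trans (le_max_left Bd 0)
    exact (mul_le_mul_of_nonneg_left (Real.sqrt_le_sqrt (by linarith)) hb.le).trans
      (le_add_of_nonneg_right zero_le_one)
  obtain ⟨xs, hxs⟩ : ∃ xs : ℕ → ℝ, xs = fun k : ℕ => 1 / ((k : ℝ) + 2) := ⟨_, rfl⟩
  have hstep : ∀ k : ℕ, ∃ j : ℕ, k ≤ j ∧ gap G (w j) ≤ xs k * xs k ∧ Φ V / 2 ≤ per G (w j) ∧
      (∫⁻ x, (∫⁻ y, slackAt G D kap (w j) b x y * ENNReal.ofReal (ijacB G D b x y)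
          ∂Sharp.pm G (w j)) ∂Sharp.pm G (w j)) ≤
        ENNReal.ofReal (((Rr * bk * ((2 + 3 * xs k) * (A + (1 / 2) ^ j) ^ 2 +
            2 * xs k * (A + (1 / 2) ^ j))) + 2 * Mm * (xs k + E) * (A + (1 / 2) ^ j) -
          2 * Mm * β * b * (1 - xs k) ^ 2 * (vol G (w j) - xs k)) / (Rr * bk)) := by
    intro k
    obtain ⟨x, hx⟩ : ∃ x, x = xs k := ⟨_, rfl⟩
    rw [← hx]
    have hx0 : 0 < x := by rw [hx, hxs]; positivity
    have hx1 : x < 1 := by
      rw [hx, hxs, div_lt_one (by positivity)]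
      linarith [(k.cast_nonneg : (0 : ℝ) ≤ k)]
    obtain ⟨wt, hwt, hwpos, hwG, hwC, hwL⟩ := hK'.weight x T hx0 hT0
    have hws : ContDiff ℝ 1 (scaled wt b) :=
      hwt.comp (by fun_prop : ContDiff ℝ 1 fun z : ℝ × ℝ => (b ^ 2 * z.1, b * z.2))
    have hwspos : ∀ p q, 0 ≤ p → q ^ 2 ≤ 2 * p → 0 < scaled wt b (p, q) := fun p q hp hq =>
      hwpos _ _ (by positivity) (by
        calc (b * q) ^ 2 = b ^ 2 * q ^ 2 := mul_pow b q 2
          _ ≤ b ^ 2 * (2 * p) := by gcongr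
          _ = _ := by ring)
    have hwc : Continuous fun q : ℝ × ℝ => q.1 / b * wt (q.1 ^ 2 / 2, q.1 * q.2) :=
      (continuous_fst.div_const b).mul (hwt.continuous.comp
        (((continuous_fst.pow 2).div_const 2).prodMk (continuous_fst.mul continuous_snd)))
    obtain ⟨C, hC'⟩ := ((isCompact_Icc (a := (0 : ℝ)) (b := T)).prod
      (isCompact_Icc (a := (-1 : ℝ)) (b := 1))).exists_bound_of_continuousOn hwc.continuousOn
    obtain ⟨C₀, hC₀⟩ : ∃ C₀, C₀ = max C 0 := ⟨_, rfl⟩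
    have hC₀0 : 0 ≤ C₀ := hC₀ ▸ le_max_right _ _
    obtain ⟨δ, hrow, hδ0⟩ := ((row_exactV h (by omega) o (R := Rd) (P₀ := A + 1) (v₀ := V / 2)
      (by linarith) (by linarith) hΦ hsup hM0' (half_pos hx0) hws hwspos).and
      (self_mem_nhdsWithin : ∀ᶠ d in 𝓝[>] (0 : ℝ), d ∈ Ioi (0 : ℝ))).exists
    have hδ : (0 : ℝ) < δ := hδ0
    have hJw : Tendsto (fun j => A + (1 / 2) ^ j - Φ (vol G (w j)) + M * gap G (w j)) atTop
        (𝓝 (A + 0 - Φ V + M * 0)) :=
      ((tendsto_const_nhds.add hgeo).sub hcΦ).add (hwg.const_mul M)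
    have hlt : A + 0 - Φ V + M * 0 < δ := by linarith [eΦ, hAeq]
    have hch : Tendsto (fun j => |hs (vol G (w j)) - GenK.modelH n (b * r) * b| * (C₀ * (A + 1)))
        atTop (𝓝 0) := by
      have := ((((hΦ.cont_slope.continuousAt (Ioi_mem_nhds hV0)).tendsto.comp hwV).sub_const
        (GenK.modelH n (b * r) * b)).abs).mul_const (C₀ * (A + 1))
      simpa [hH] using this
    have hper : Tendsto (fun j => Φ (vol G (w j)) - M * gap G (w j)) atTop (𝓝 (Φ V - M * 0)) :=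
      hcΦ.sub (hwg.const_mul M)
    obtain ⟨j, hj1, hj2, hj3, hj4, hj5, hj6⟩ :=
      ((hwV.eventually (eventually_ge_nhds (by linarith : V / 2 < V))).and
        (((tendsto_order.1 hJw).2 δ hlt).and
        ((hwg.eventually (eventually_le_nhds (lt_min hδ (mul_pos hx0 hx0)))).and
        (((tendsto_order.1 hch).2 (x / 2) (half_pos hx0)).and
        (((tendsto_order.1 hper).1 (Φ V / 2) (by linarith)).and (eventually_ge_atTop k)))))).exists
    have hu := hw j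
    have hgu : gap G (w j) ≤ x * x := hj3.trans (min_le_right _ _)
    have hPu : per G (w j) ≤ A + 1 :=
      (hwp j).trans (add_le_add le_rfl (pow_le_one₀ (by norm_num) (by norm_num)))
    have hlow := hJ (w j) hu (by linarith)
    refine ⟨j, hj6, hgu, by linarith, ?_⟩
    have hnm : NearMinV G D o Rd (A + 1) (V / 2) Φ M δ (w j) := by
      refine ⟨hu, hPu, hj1, hj3.trans (min_le_left _ _), fun u' hu' hv2 => ?_⟩
      linarith [hJ u' hu' (by linarith), hwp j]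
    have hCw : ∀ y z, D o y ≤ Rd → D o z ≤ Rd → Real.sqrt (2 * D y z) *
        wt (b ^ 2 * D y z, b * (Dir.scos G D (w j) z y * Real.sqrt (2 * D y z))) ≤ C₀ := by
      intro y z hy hz
      have hm : (b * Real.sqrt (2 * D y z), Dir.scos G D (w j) z y) ∈
          Icc (0 : ℝ) T ×ˢ Icc (-1 : ℝ) 1 :=
        ⟨⟨mul_nonneg hb.le (Real.sqrt_nonneg _), hTb y z hy hz⟩, Gen.scos_mem_Icc h _ z y⟩
      refine le_trans (le_of_eq ?_)
        (((le_abs_self _).trans (hC' _ hm)).trans (hC₀ ▸ le_max_left C 0))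
      have e1 : (b * Real.sqrt (2 * D y z)) ^ 2 / 2 = b ^ 2 * D y z := by
        rw [mul_pow, Real.sq_sqrt (by linarith [h.dist_nonneg y z])]; ring
      show _ = b * Real.sqrt (2 * D y z) / b *
        wt ((b * Real.sqrt (2 * D y z)) ^ 2 / 2, b * Real.sqrt (2 * D y z) * Dir.scos G D (w j) z y)
      rw [e1, mul_div_cancel_left₀ _ hb.ne']
      ring_nf
    have hP0 := h.per_nonneg (w j)
    have hrows : ∀ y, D o y ≤ Rd → ∫ z, rowG G D (w j) wt b (b * r) y z ∂Sharp.pm G (w j) ≤ x := by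
      intro y hy
      refine (rowG_integral_le h (by omega) hbend hb hwt hwpos hu hCw hy
        (hrow (w j) hnm y (dirCov G (w j) y) hy (conorm_dirCov_le h (w j) y))).trans ?_
      have := mul_le_mul_of_nonneg_left hPu
        (mul_nonneg (abs_nonneg (hs (vol G (w j)) - GenK.modelH n (b * r) * b)) hC₀0)
      linarith
    have hI := kerQ_le_rows h (by omega) hbend hb hwt hwpos hu hx0.le hTb hwG hrows
    have hp := Strict.pair_integralK hn h hbend he hu hK'.measurable_a hK'.a_nonpos hK'.a_bounded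
      (continuous_cutK (n := n) (ρ := b * r) (ε := x) hwt hK'.slack.cont) hb hβ hx0.le hx0 hx1 hTb
      hwC hwL
    rw [← hMm, ← hRr, ← hE, ← hbk] at hp
    refine (lintegral_slack_le (ρ := b * r) h hbend hb.le hu hwt hK'.slack.cont hK'.slack.nonneg hx0.le).trans
      (ENNReal.ofReal_le_ofReal ?_)
    rw [le_div_iff₀ (mul_pos hRr0 hbk0)]
    have hg : gap G (w j) / x ≤ x := by rw [div_le_iff₀ hx0]; exact hgu
    obtain ⟨Pj, hPj⟩ : ∃ Pj, Pj = A + (1 / 2) ^ j := ⟨_, rfl⟩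
    have hPb : per G (w j) ≤ Pj := hPj ▸ hwp j
    rw [← hPj]
    have h1 := mul_le_mul_of_nonneg_left hI (mul_pos hRr0 hbk0).le
    have h2 : Rr * bk * ((2 + 3 * x) * per G (w j) ^ 2 + 2 * x * per G (w j)) ≤
        Rr * bk * ((2 + 3 * x) * Pj ^ 2 + 2 * x * Pj) := by
      refine mul_le_mul_of_nonneg_left (add_le_add ?_ ?_) (mul_pos hRr0 hbk0).le
      · exact mul_le_mul_of_nonneg_left (pow_le_pow_left₀ hP0 hPb 2) (by positivity)
      · exact mul_le_mul_of_nonneg_left hPb (by positivity)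
    have h3 : 2 * Mm * (x + E) * per G (w j) ≤ 2 * Mm * (x + E) * Pj :=
      mul_le_mul_of_nonneg_left hPb (by positivity)
    have h4 := mul_le_mul_of_nonneg_left (by linarith : vol G (w j) - x ≤ vol G (w j) - gap G (w j) / x)
      (by positivity : 0 ≤ 2 * Mm * β * b * (1 - x) ^ 2)
    linarith
  choose js hjs hgs hps hsl using hstep
  refine ⟨o, Rd, Φ V / 2, fun k => w (js k),
    ⟨hΩK, fun k => hw (js k), ?_⟩, half_pos hΦV0, hps, ?_⟩
  · exact squeeze_zero (fun k => integral_nonneg fun y => abs_nonneg _) (fun k => hwi (js k))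
      (hgeo.comp (tendsto_atTop_mono hjs tendsto_id))
  have hjlim : Tendsto js atTop atTop := tendsto_atTop_mono hjs tendsto_id
  have hx : Tendsto xs atTop (𝓝 0) := by
    rw [hxs]
    exact (tendsto_atTop_add_const_right _ (2 : ℝ) tendsto_natCast_atTop_atTop).inv_tendsto_atTop.congr
      fun k => by simp
  have hPl : Tendsto (fun k => A + (1 / 2 : ℝ) ^ js k) atTop (𝓝 A) := by
    simpa using (hgeo.comp hjlim).const_add A
  have hlimQ : Tendsto (fun k => ((Rr * bk * ((2 + 3 * xs k) * (A + (1 / 2) ^ js k) ^ 2 +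
            2 * xs k * (A + (1 / 2) ^ js k))) + 2 * Mm * (xs k + E) * (A + (1 / 2) ^ js k) -
          2 * Mm * β * b * (1 - xs k) ^ 2 * (vol G (w (js k)) - xs k)) / (Rr * bk)) atTop
      (𝓝 (((Rr * bk * ((2 + 3 * 0) * A ^ 2 + 2 * 0 * A)) + 2 * Mm * (0 + E) * A -
          2 * Mm * β * b * (1 - 0) ^ 2 * (V - 0)) / (Rr * bk))) :=
    ((((((hx.const_mul 3).const_add 2).mul (hPl.pow 2)).add ((hx.const_mul 2).mul hPl)).const_mul
      (Rr * bk)).add (((hx.add_const E).const_mul (2 * Mm)).mul hPl) |>.sub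
      ((((hx.const_sub 1).pow 2).const_mul (2 * Mm * β * b)).mul
        ((hwV.comp hjlim).sub hx))).div_const _
  have hQ0 : ((Rr * bk * ((2 + 3 * 0) * A ^ 2 + 2 * 0 * A)) + 2 * Mm * (0 + E) * A -
          2 * Mm * β * b * (1 - 0) ^ 2 * (V - 0)) / (Rr * bk) ≤ 0 := by
    refine div_nonpos_of_nonpos_of_nonneg ?_ (mul_pos hRr0 hbk0).le
    rw [← hAeq, hvol] at hval
    linarith
  have htop := ENNReal.tendsto_ofReal hlimQ
  rw [ENNReal.ofReal_of_nonpos hQ0] at htop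
  exact tendsto_of_tendsto_of_tendsto_of_le_of_le tendsto_const_nhds htop (fun _ => zero_le) hsl

/-- Equality against curvature at most `-b ^ 2` is attained only by model balls. -/
theorem rigidBend_of_strict [NeZero n] (hn : 2 ≤ n) (hC : Cert n) (hS : StrictCert n) :
    RigidBend n := by
  intro G D h b hb hbend Ω A hΩ hΩb hP hV r hr hvol hA
  have hr0 : 0 < r := by
    refine lt_of_le_of_ne hr fun h0 => ?_
    rw [← h0, modelVol_zero, mul_zero] at hvol
    exact absurd hvol hV.ne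
  obtain ⟨a, β, kap, hst⟩ := hS (b * r) (mul_pos hb hr0)
  obtain ⟨o, Rd, c, u, happ, hc, hper, hsl⟩ :=
    deficitH hn hC h hb hbend hΩ hΩb hP hV hr0 hvol hA hst
  exact isometricH_of_slack hn h hbend hb hr0 hst.slack hΩ hV hvol happ hc hper hsl

end Vale.Agent.P219.CH.Relax.Rigid
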