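import Vale.Agent.P219.Relax.Volume
import Vale.Agent.P219.Relax.Rigid.Deficit

/-!
# P219: a strict relaxed certificate gives the inequality and the equality case
-/

noncomputable section

open MeasureTheory Matrix

namespace Vale.Agent.P219.CH.Relax.Rigid

open Bend (unitBall BendCH)

/-- The inequality at every volume with its equality case, spelled out. -/
theorem sharp_rigid (n : ℕ) [NeZero n] (hn : 2 ≤ n) (hC : Cert n) (hS : StrictCert n)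
    (G : (Fin n → ℝ) → Matrix (Fin n) (Fin n) ℝ) (D : (Fin n → ℝ) → (Fin n → ℝ) → ℝ)
    (h : IsCH G D) (b : ℝ) (hb : 0 < b) (hbend : BendCH G D b)
    (Ω : Set (Fin n → ℝ)) (A : ℝ) (hΩ : MeasurableSet Ω) (hΩb : Bornology.IsBounded Ω)
    (hA : PerimeterLE G Ω A) :
    ∃ r, 0 ≤ r ∧ unitBall n * modelVol n b r = volG G Ω ∧
      unitBall n * modelArea n b r ≤ A ∧
      (0 < volG G Ω → A ≤ unitBall n * modelArea n b r →
        ∃ (W : Set (Fin n → ℝ)) (Φ : (Fin n → ℝ) → (Fin n → ℝ)), IsOpen W ∧ ContDiff ℝ 1 Φ ∧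
          Function.Bijective Φ ∧ Φ '' W = {z | z ⬝ᵥ z < sn b r ^ 2} ∧
          (∀ x ∈ W, ∀ v, fderiv ℝ Φ x v ⬝ᵥ fderiv ℝ Φ x v -
              b ^ 2 * (Φ x ⬝ᵥ fderiv ℝ Φ x v) ^ 2 / (1 + b ^ 2 * (Φ x ⬝ᵥ Φ x)) =
            v ⬝ᵥ (G x *ᵥ v)) ∧
          Ω =ᵐ[volume] W ∧ (IsOpen Ω → interior (closure Ω) = Ω → Ω = W)) := by
  obtain ⟨r, hr, hv, ha⟩ := sharp_all_volumes n hn hC G D h hb hbend Ω A hΩ hΩb hA
  exact ⟨r, hr, hv, ha, fun hV hAA =>
    rigidBend_of_strict hn hC hS G D h b hb hbend Ω A hΩ hΩb hA hV r hr hv hAA⟩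

end Vale.Agent.P219.CH.Relax.Rigid
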