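import Vale.Agent.P219.Relax.Rigid.Chart
import Vale.Agent.P219.Rigid.Shape

/-!
# P219: the hyperbolic chart at a boundary point contracts the metric

The logarithm at `y`, read in hyperbolic space and moved by the boost along the inner normal. Under
curvature at most `-b ^ 2` the pullback of the model metric is below `G`, so the normalised
determinant is at most one, with equality only for isometries.
-/

noncomputable section

open MeasureTheory Set Filter Topology Matrix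

namespace Vale.Agent.P219.CH.Relax.Rigid

open Bend (csh cshd sfac)

variable {n : ℕ} {G : (Fin n → ℝ) → Matrix (Fin n) (Fin n) ℝ}
  {D : (Fin n → ℝ) → (Fin n → ℝ) → ℝ} {b R : ℝ}

/-- The unit vector of the inner normal in the frame at `y`. -/
def normalVec (G : (Fin n → ℝ) → Matrix (Fin n) (Fin n) ℝ) (y ξ : Fin n → ℝ) : Fin n → ℝ :=
  -(Sharp.frame G y *ᵥ ξ)

/-- The chart: the model ball of radius `R` at `y` with normal `ξ` goes to a ball centred at `0`. -/
def hypChart (G : (Fin n → ℝ) → Matrix (Fin n) (Fin n) ℝ)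
    (D : (Fin n → ℝ) → (Fin n → ℝ) → ℝ) (b R : ℝ) (y ξ x : Fin n → ℝ) : Fin n → ℝ :=
  boost b (normalVec G y ξ) (b * R) (radX b (Sharp.ucoord G D y x))

/-- Zero exactly on the model sphere of radius `R` through `y` with normal `ξ`, negative inside. -/
def sphFun (G : (Fin n → ℝ) → Matrix (Fin n) (Fin n) ℝ)
    (D : (Fin n → ℝ) → (Fin n → ℝ) → ℝ) (b R : ℝ) (y ξ x : Fin n → ℝ) : ℝ :=
  Real.cosh (b * R) * (csh (2 * b ^ 2 * D x y) - 1) +
    b * Real.sinh (b * R) * sfac b (D x y) * pairing G y ξ (cd (D x) y)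

lemma normalVec_dot (h : IsCH G D) {y ξ : Fin n → ℝ} (hξ : conorm G y ξ = 1) :
    normalVec G y ξ ⬝ᵥ normalVec G y ξ = 1 := by
  rw [normalVec, neg_dotProduct, dotProduct_neg, neg_neg, Sharp.frame_dot h, ← h.conorm_sq, hξ,
    one_pow]

lemma ucoord_args (h : IsCH G D) (y x : Fin n → ℝ) :
    Sharp.ucoord G D y x ⬝ᵥ Sharp.ucoord G D y x = 2 * D x y ∧
      b ^ 2 * (Sharp.ucoord G D y x ⬝ᵥ Sharp.ucoord G D y x) = 2 * b ^ 2 * D x y := by
  have := Sharp.ucoord_dot h y x
  exact ⟨this, by rw [this]; ring⟩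

lemma contDiff_hypChart (h : IsCH G D) (y ξ : Fin n → ℝ) :
    ContDiff ℝ 1 (hypChart G D b R y ξ) :=
  (contDiff_boost b _ _).comp
    ((contDiff_radX b).comp (contDiff_pi.2 (Sharp.contDiff_ucoord h y)))

lemma hypChart_bijective (h : IsCH G D) (hb : b ≠ 0) {y ξ : Fin n → ℝ} (hξ : conorm G y ξ = 1) :
    Function.Bijective (hypChart G D b R y ξ) := by
  have h0 := CH.Rigid.chart_bijective h y 0 (Six.covector_bijective h y)
  have e : CH.Rigid.chart G D y 0 = fun x => Sharp.ucoord G D y x :=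
    funext fun x => add_zero _
  rw [e] at h0
  exact (boost_bijective hb (normalVec_dot h hξ)).comp
    (Function.Bijective.comp (g := radX b) ⟨radX_injective hb, radX_surjective hb⟩ h0)

/-- The squared radius of the chart. -/
lemma hypChart_sq (h : IsCH G D) (hb : b ≠ 0) {y ξ : Fin n → ℝ} (hξ : conorm G y ξ = 1)
    (x : Fin n → ℝ) :
    timeC b (hypChart G D b R y ξ x) = Real.cosh (b * R) + sphFun G D b R y ξ x ∧
      b ^ 2 * (hypChart G D b R y ξ x ⬝ᵥ hypChart G D b R y ξ x) - Real.sinh (b * R) ^ 2 =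
        sphFun G D b R y ξ x * (2 * Real.cosh (b * R) + sphFun G D b R y ξ x) ∧
      0 < Real.cosh (b * R) + sphFun G D b R y ξ x := by
  have e : timeC b (hypChart G D b R y ξ x) = Real.cosh (b * R) + sphFun G D b R y ξ x := by
    obtain ⟨hC, -⟩ := radX_facts b (Sharp.ucoord G D y x)
    rw [hypChart, timeC_boost hb (normalVec_dot h hξ), hC, (ucoord_args h y x).2, radX,
      dotProduct_smul, (ucoord_args h y x).2, normalVec, neg_dotProduct, Sharp.ucoord,
      Sharp.frame_dot h, sphFun, sfac, smul_eq_mul]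
    ring
  have h1 := timeC_sq b (hypChart G D b R y ξ x)
  rw [e] at h1
  refine ⟨e, ?_, e ▸ timeC_pos _ _⟩
  linear_combination Real.cosh_sq (b * R) - h1

/-- The pullback of the model metric is below `G`; it has no kernel. -/
theorem pull_le (h : IsCH G D) (hbend : Bend.BendCH G D b) (hb : b ≠ 0) {y ξ : Fin n → ℝ}
    (hξ : conorm G y ξ = 1) (x v : Fin n → ℝ) :
    hypQ b (hypChart G D b R y ξ x) (fderiv ℝ (hypChart G D b R y ξ) x v) ≤ qf G x v ∧
      (fderiv ℝ (hypChart G D b R y ξ) x v = 0 → v = 0) := by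
  obtain ⟨ζ, hζ⟩ : ∃ ζ, ζ = Sharp.ucoord G D y x := ⟨_, rfl⟩
  have hU : HasFDerivAt (fun z => Sharp.ucoord G D y z)
      ((Matrix.toLin' (Sharp.frame G y)).toContinuousLinearMap.comp (Six.mixedD D y x)) x := by
    simpa [CH.Rigid.chart] using CH.Rigid.hasFDerivAt_chart h y 0 x
  obtain ⟨T, hT⟩ : ∃ T, T = (Matrix.toLin' (Sharp.frame G y)).toContinuousLinearMap.comp
      (Six.mixedD D y x) := ⟨_, rfl⟩
  rw [← hT] at hU
  obtain ⟨u, hu⟩ : ∃ u, u = T v := ⟨_, rfl⟩
  have hX : Differentiable ℝ (radX (n := n) b) := (contDiff_radX b).differentiable one_ne_zero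
  have hB : Differentiable ℝ (boost b (normalVec G y ξ) (b * R)) :=
    (contDiff_boost b _ _).differentiable one_ne_zero
  have hd : HasFDerivAt (hypChart G D b R y ξ)
      ((fderiv ℝ (boost b (normalVec G y ξ) (b * R)) (radX b ζ)).comp
        ((fderiv ℝ (radX b) ζ).comp T)) x := by
    rw [hζ]
    exact ((hB _).hasFDerivAt).comp x (((hX _).hasFDerivAt).comp x hU)
  have hcomp : hypQ b (hypChart G D b R y ξ x) (fderiv ℝ (hypChart G D b R y ξ) x v) =
      hypQ b (radX b ζ) (fderiv ℝ (radX b) ζ u) := by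
    rw [hd.fderiv, hypChart, ← hζ, hu]
    exact hypQ_boost hb (normalVec_dot h hξ) _ _
  have hsum : ∑ k, (cd (fun z => Sharp.ucoord G D y z k) x ⬝ᵥ v) ^ 2 = u ⬝ᵥ u := by
    simp only [dotProduct, ← sq]
    refine Finset.sum_congr rfl fun k _ => ?_
    rw [show (∑ i, cd (fun z => Sharp.ucoord G D y z k) x i * v i) =
      cd (fun z => Sharp.ucoord G D y z k) x ⬝ᵥ v from rfl, cd_dotProduct,
      (hasFDerivAt_pi'.1 hU k).fderiv, hu]
    rfl
  have ha : cd (D y) x ⬝ᵥ v = ζ ⬝ᵥ u := by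
    have h1 : HasFDerivAt (fun z => Sharp.ucoord G D y z ⬝ᵥ Sharp.ucoord G D y z) _ x :=
      (hasFDerivAt_dot_self _).comp x hU
    have e : (fun z => Sharp.ucoord G D y z ⬝ᵥ Sharp.ucoord G D y z) = fun z => 2 * D y z :=
      funext fun z => by rw [Sharp.ucoord_dot h, Sharp.dist_symm h]
    rw [e] at h1
    have h2 := ((((h.contDiff_D y).differentiable two_ne_zero x)).hasFDerivAt).const_mul 2
    have h3 := congrArg (fun L : (Fin n → ℝ) →L[ℝ] ℝ => L v) (h2.unique h1)
    simp only [_root_.smul_apply, ContinuousLinearMap.comp_apply, smul_eq_mul,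
      dot_proj_sum, ← hζ, ← hu] at h3
    rw [cd_dotProduct]
    linarith
  obtain ⟨hN, hbN⟩ := ucoord_args (b := b) h y x
  rw [← hζ] at hN hbN
  have hkey := hypQ_radX (b := b) ζ u
  rw [hbN, hN] at hkey
  have hq : hypQ b (radX b ζ) (fderiv ℝ (radX b) ζ u) ≤ qf G x v := by
    rcases (h.dist_nonneg x y).eq_or_lt with h0 | h0
    · have hz : ζ = 0 := dotProduct_self_eq_zero.1 (by rw [hN, ← h0, mul_zero])
      rw [radX_deriv, hz]
      have hs := Sharp.sum_fderiv_ucoord_le h y x v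
      rw [hsum] at hs
      simpa [radX, hypQ, Bend.cshd_zero] using hs
    · have hs := Bend.sum_fderiv_ucoord_sfac h hbend y x v
      rw [hsum, ha, Sharp.dist_symm h y x, sfac] at hs
      refine le_of_mul_le_mul_left ?_ (mul_pos two_pos h0)
      linarith
  refine ⟨hcomp ▸ hq, fun hv => ?_⟩
  rw [hv] at hcomp
  have h0 : hypQ b (radX b ζ) (fderiv ℝ (radX b) ζ u) = 0 := by
    rw [← hcomp]; simp [hypQ]
  rw [h0, mul_zero] at hkey
  have hu0 : u = 0 := by
    rcases (h.dist_nonneg x y).eq_or_lt with hD0 | hD0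
    · have hz : ζ = 0 := dotProduct_self_eq_zero.1 (by rw [hN, ← hD0, mul_zero])
      rw [radX_deriv, hz] at h0
      simp [radX, hypQ, Bend.cshd_zero] at h0
      exact h0
    · obtain ⟨S, hS⟩ : ∃ S, S = 2 * cshd (2 * b ^ 2 * D x y) := ⟨_, rfl⟩
      rw [← hS] at hkey
      have hS0 : 0 < S := hS ▸ mul_pos two_pos (Bend.cshd_pos (Bend.arg_nonneg b hD0.le))
      have hCS := dot_sq_le ζ u
      rw [hN] at hCS
      have h1 : 0 ≤ S ^ 2 * (2 * D x y * (u ⬝ᵥ u) - (ζ ⬝ᵥ u) ^ 2) :=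
        mul_nonneg (sq_nonneg S) (by linarith)
      have ha0 : (ζ ⬝ᵥ u) ^ 2 = 0 := le_antisymm (by linarith) (sq_nonneg _)
      rw [ha0] at hkey
      have h2 : S ^ 2 * (2 * D x y * (u ⬝ᵥ u)) = 0 := by linarith
      refine dotProduct_self_eq_zero.1 ?_
      rcases mul_eq_zero.1 h2 with h3 | h3
      · exact absurd (pow_eq_zero_iff two_ne_zero |>.1 h3) hS0.ne'
      · exact (mul_eq_zero.1 h3).resolve_left (by linarith)
  obtain ⟨-, -, -, h4⟩ := Sharp.frame_spec h y
  have hA : IsUnit (Sharp.frame G y).det := by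
    refine Ne.isUnit fun hz => ?_
    rw [hz, abs_zero] at h4
    exact (inv_pos.2 (h.dens_pos y)).ne h4
  refine Six.mixed_injective h y x ?_
  rw [map_zero]
  have h5 : Sharp.frame G y *ᵥ Six.mixedD D y x v = 0 := by
    rw [← hu0, hu, hT]; simp
  simpa [mulVec_mulVec, Matrix.nonsing_inv_mul _ hA] using
    congrArg (fun t => (Sharp.frame G y)⁻¹ *ᵥ t) h5

/-- The square root of the model metric. -/
def sqrtQ (b : ℝ) (z : Fin n → ℝ) : Matrix (Fin n) (Fin n) ℝ :=
  1 + vecMulVec ((-(b ^ 2 / (timeC b z * (1 + timeC b z)))) • z) z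

lemma sqrtQ_spec (b : ℝ) (z : Fin n → ℝ) :
    (∀ w, (sqrtQ b z *ᵥ w) ⬝ᵥ (sqrtQ b z *ᵥ w) = hypQ b z w) ∧
      (sqrtQ b z).det = (timeC b z)⁻¹ := by
  have hC := timeC_pos b z
  have hC1 : 0 < 1 + timeC b z := by linarith
  have e1 := timeC_sq b z
  constructor
  · intro w
    rw [sqrtQ, add_mulVec, one_mulVec, vecMulVec_mulVec, op_smul_eq_smul, hypQ, ← timeC_sq]
    simp only [dotProduct_add, add_dotProduct, dotProduct_smul, smul_dotProduct, smul_eq_mul,
      dotProduct_comm w z]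
    field_simp
    linear_combination (-(b ^ 2 * (z ⬝ᵥ w) ^ 2)) * e1
  · rw [sqrtQ, vecMulVec_eq Unit, det_one_add_replicateCol_mul_replicateRow, dotProduct_smul,
      smul_eq_mul]
    field_simp
    linear_combination e1

/-- A contraction has determinant at most one in absolute value. -/
lemma abs_det_le_one_of_contr {B : Matrix (Fin n) (Fin n) ℝ}
    (hB : ∀ w, (B *ᵥ w) ⬝ᵥ (B *ᵥ w) ≤ w ⬝ᵥ w) : |B.det| ≤ 1 := by
  have hP : (Bᵀ * B).PosSemidef := by
    simpa [conjTranspose_eq_transpose_of_trivial] using posSemidef_conjTranspose_mul_self B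
  have hle : ∀ i, hP.isHermitian.eigenvalues i ≤ 1 := fun i => by
    have e := hP.isHermitian.eigenvalues_eq i
    set v : Fin n → ℝ := WithLp.ofLp (hP.isHermitian.eigenvectorBasis i)
    have hn : v ⬝ᵥ v = 1 := by
      have := hP.isHermitian.eigenvectorBasis.orthonormal.1 i
      have h2 : ‖hP.isHermitian.eigenvectorBasis i‖ ^ 2 = 1 := by rw [this]; norm_num
      rw [EuclideanSpace.norm_sq_eq] at h2
      simpa [v, dotProduct, sq] using h2
    rw [e, ← hn]
    simp only [star_trivial, RCLike.re_to_real]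
    rw [← mulVec_mulVec, dotProduct_mulVec, vecMul_transpose]
    exact hB v
  have h1 := hP.isHermitian.det_eq_prod_eigenvalues
  simp only [RCLike.ofReal_real_eq_id, id_eq, det_mul, det_transpose] at h1
  refine abs_le_of_sq_le_sq ?_ zero_le_one
  rw [one_pow, sq, h1]
  exact Finset.prod_le_one (fun j _ => hP.eigenvalues_nonneg j) fun j _ => hle j

/-- The volume of the model metric in the chart is at most that of `G`, with equality only where
the chart is isometric. -/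
theorem det_hypChart (h : IsCH G D) (hbend : Bend.BendCH G D b) (hb : b ≠ 0) {y ξ : Fin n → ℝ}
    (hξ : conorm G y ξ = 1) (x : Fin n → ℝ) :
    0 < |(fderiv ℝ (hypChart G D b R y ξ) x).det| ∧
      |(fderiv ℝ (hypChart G D b R y ξ) x).det| / timeC b (hypChart G D b R y ξ x) ≤ dens G x ∧
      (|(fderiv ℝ (hypChart G D b R y ξ) x).det| / timeC b (hypChart G D b R y ξ x) = dens G x →
        ∀ v, hypQ b (hypChart G D b R y ξ x) (fderiv ℝ (hypChart G D b R y ξ) x v) = qf G x v) := by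
  obtain ⟨Φ', hΦ'⟩ : ∃ Φ', Φ' = fderiv ℝ (hypChart G D b R y ξ) x := ⟨_, rfl⟩
  obtain ⟨z, hz⟩ : ∃ z, z = hypChart G D b R y ξ x := ⟨_, rfl⟩
  obtain ⟨hM, hMd⟩ := sqrtQ_spec b z
  obtain ⟨hx1, hx2, -, hx4⟩ := Sharp.frame_spec h x
  obtain ⟨A', hA'⟩ : ∃ A', A' = Sharp.frame G x := ⟨_, rfl⟩
  rw [← hA'] at hx1 hx2 hx4
  obtain ⟨B, hBdef⟩ : ∃ B, B = sqrtQ b z * opMat Φ' * A' := ⟨_, rfl⟩
  have hd := h.dens_pos x
  have hpull := fun v => pull_le (R := R) h hbend hb hξ x v
  rw [← hΦ', ← hz] at hpull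
  have eB : ∀ w, (B *ᵥ w) ⬝ᵥ (B *ᵥ w) = hypQ b z (Φ' (A' *ᵥ w)) := fun w => by
    rw [hBdef, ← mulVec_mulVec, ← mulVec_mulVec, hM, Six.opMat_mulVec]
  have eq' : ∀ w, qf G x (A' *ᵥ w) = w ⬝ᵥ w := fun w => by
    rw [qf, dotProduct_mulVec, vecMul_mulVec, hx1, ← dotProduct_mulVec, mulVec_mulVec, hx2,
      one_mulVec]
  have hB : ∀ w, (B *ᵥ w) ⬝ᵥ (B *ᵥ w) ≤ w ⬝ᵥ w := fun w => by
    rw [eB, ← eq']; exact (hpull _).1
  have edet : |B.det| = |Φ'.det| / timeC b z / dens G x := by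
    rw [hBdef, det_mul, det_mul, abs_mul, abs_mul, hMd, ← det_eq_det_opMat, hx4, abs_inv,
      abs_of_pos (timeC_pos b z)]
    ring
  rw [← hΦ', ← hz]
  have hdet : 0 < |Φ'.det| := by
    refine abs_pos.2 fun h0 => ?_
    rw [ContinuousLinearMap.det, LinearMap.det_eq_zero_iff_ker_ne_bot] at h0
    exact h0 (LinearMap.ker_eq_bot'.2 fun v hv => (hpull v).2 hv)
  refine ⟨hdet, ?_, fun he v => ?_⟩
  · have := abs_det_le_one_of_contr hB
    rw [edet, div_le_one hd] at this
    exact this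
  have hP := CH.Rigid.dot_of_abs_det_eq_one hB (by rw [edet, he, div_self hd.ne'])
  have hA : IsUnit A'.det := by
    refine Ne.isUnit fun h0 => ?_
    rw [h0, abs_zero] at hx4
    exact (inv_pos.2 hd).ne hx4
  obtain ⟨w, rfl⟩ : ∃ w, A' *ᵥ w = v :=
    ⟨A'⁻¹ *ᵥ v, by rw [mulVec_mulVec, Matrix.mul_nonsing_inv _ hA, one_mulVec]⟩
  rw [← eB, eq', dotProduct_mulVec, ← mulVec_transpose, mulVec_mulVec, hP, one_mulVec]

end Vale.Agent.P219.CH.Relax.Rigid
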