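import Vale.Agent.P219.Relax.Rigid.Pull
import Vale.Agent.P219.Bend.Model

/-!
# P219: perimeter on one model sphere makes the set the model ball, isometrically

Away from the sphere, and from one ray beyond it, the set is locally full or null. It is null
outside by connectedness, so full inside; the two volumes agree, so the normalised determinant of the chart is one and the chart is
isometric on the ball.
-/

noncomputable section

open MeasureTheory Set Filter Topology Matrix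
open scoped ENNReal

namespace Vale.Agent.P219.CH.Relax.Rigid

variable {n : ℕ} {G : (Fin n → ℝ) → Matrix (Fin n) (Fin n) ℝ}
  {D : (Fin n → ℝ) → (Fin n → ℝ) → ℝ} {b R : ℝ}

/-- Perimeter disappears away from the model sphere and from the part outside it of the geodesic
through `y` along the normal. -/
def OnHypSphere (G : (Fin n → ℝ) → Matrix (Fin n) (Fin n) ℝ)
    (D : (Fin n → ℝ) → (Fin n → ℝ) → ℝ) (b R : ℝ) (y ξ : Fin n → ℝ)
    (u : ℕ → (Fin n → ℝ) → ℝ) : Prop :=
  ∀ T : Set (Fin n → ℝ), IsCompact T → (∀ x ∈ T, sphFun G D b R y ξ x ≠ 0 ∧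
      (0 < sphFun G D b R y ξ x → pairing G y ξ (cd (D x) y) ^ 2 ≠ 2 * D x y)) →
    Tendsto (fun k => ∫⁻ x in T, ENNReal.ofReal (conorm G x (cd (u k) x) * dens G x)) atTop (𝓝 0)

/-- The conclusion at equality: the ball of radius `R` in an isometric chart of the model. -/
def IsometricH (G : (Fin n → ℝ) → Matrix (Fin n) (Fin n) ℝ) (b R : ℝ)
    (Ω : Set (Fin n → ℝ)) : Prop :=
  ∃ (W : Set (Fin n → ℝ)) (Φ : (Fin n → ℝ) → (Fin n → ℝ)), IsOpen W ∧ ContDiff ℝ 1 Φ ∧
    Function.Bijective Φ ∧ Φ '' W = {z | z ⬝ᵥ z < sn b R ^ 2} ∧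
    (∀ x ∈ W, ∀ v, hypQ b (Φ x) (fderiv ℝ Φ x v) = v ⬝ᵥ (G x *ᵥ v)) ∧
    Ω =ᵐ[volume] W ∧ (IsOpen Ω → interior (closure Ω) = Ω → Ω = W)

/-- The model volume of a centred ball in the coordinates of the hyperboloid. -/
theorem lintegral_model_ball [NeZero n] (hb : 0 < b) (hR : 0 ≤ R) :
    ∫⁻ z in {z : Fin n → ℝ | z ⬝ᵥ z < sn b R ^ 2}, ENNReal.ofReal (timeC b z)⁻¹ =
      ENNReal.ofReal (Bend.unitBall n * modelVol n b R) := by
  obtain ⟨a, ha⟩ : ∃ a, a = sn b R := ⟨_, rfl⟩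
  have ha0 : 0 ≤ a := ha ▸ sn_nonneg b hR
  rw [← ha]
  set S := {z : Fin n → ℝ | z ⬝ᵥ z < a ^ 2} with hS
  have hdot : Continuous fun z : Fin n → ℝ => z ⬝ᵥ z := continuous_id.dotProduct continuous_id
  have hSm : MeasurableSet S := (isOpen_lt hdot continuous_const).measurableSet
  have hc : Continuous fun z : Fin n → ℝ => (timeC b z)⁻¹ :=
    (contDiff_timeC b).continuous.inv₀ fun z => (timeC_pos b z).ne'
  have hf : IntegrableOn (fun z : Fin n → ℝ => (timeC b z)⁻¹) S := by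
    refine IntegrableOn.of_bound ?_ hc.aestronglyMeasurable 1 (Eventually.of_forall fun z => ?_)
    · rw [hS, (CH.Rigid.volume_dot_ball ha0).2]; exact ENNReal.ofReal_lt_top
    · rw [Real.norm_of_nonneg (inv_nonneg.2 (timeC_pos b z).le)]
      refine inv_le_one_of_one_le₀ (Real.one_le_sqrt.2 ?_)
      linarith [mul_nonneg (sq_nonneg b) (dot_self_nonneg z)]
  rw [← ofReal_integral_eq_lintegral_ofReal hf
    (Eventually.of_forall fun z => inv_nonneg.2 (timeC_pos b z).le)]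
  congr 1
  set g : ℝ → ℝ := (Iio a).indicator fun t => (Real.sqrt (1 + b ^ 2 * t ^ 2))⁻¹ with hg
  have e1 : ∀ z : Fin n → ℝ, S.indicator (fun z => (timeC b z)⁻¹) z =
      g ‖(WithLp.toLp 2 z : EuclideanSpace ℝ (Fin n))‖ := by
    intro z
    obtain ⟨t, ht⟩ : ∃ t, t = ‖(WithLp.toLp 2 z : EuclideanSpace ℝ (Fin n))‖ := ⟨_, rfl⟩
    have hz : z ⬝ᵥ z = t ^ 2 := ht ▸ CH.Rigid.dot_eq_norm_sq z
    have hiff : z ∈ S ↔ t ∈ Iio a := by
      simp only [hS, mem_ofPred_eq, mem_Iio, hz, sq_lt_sq₀ (ht ▸ norm_nonneg _) ha0]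
    rw [← ht, hg]
    by_cases h : z ∈ S
    · rw [indicator_of_mem h, indicator_of_mem (hiff.1 h), timeC, hz]
    · rw [indicator_of_notMem h, indicator_of_notMem (fun h' => h (hiff.2 h'))]
  have e2 : ∫ z in S, (timeC b z)⁻¹ = ∫ x : EuclideanSpace ℝ (Fin n), g ‖x‖ := by
    rw [← integral_indicator hSm, ← (PiLp.volume_preserving_toLp (Fin n)).integral_comp
      (MeasurableEquiv.toLp 2 (Fin n → ℝ)).measurableEmbedding]
    exact integral_congr_ae (Eventually.of_forall e1)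
  rw [e2, integral_fun_norm_addHaar, finrank_euclideanSpace_fin, nsmul_eq_mul, smul_eq_mul,
    modelVol]
  rw [show volume.real (Metric.ball (0 : EuclideanSpace ℝ (Fin n)) 1) = Bend.unitBall n from rfl]
  have e3 : ∫ y in Ioi (0 : ℝ), y ^ (n - 1) • g y =
      ∫ t in (0 : ℝ)..R, sn b t ^ (n - 1) := by
    set F : ℝ → ℝ := fun u => u ^ (n - 1) * (Real.sqrt (1 + b ^ 2 * u ^ 2))⁻¹ with hF
    have hFc : Continuous F := (continuous_pow _).mul
      ((by fun_prop : Continuous fun u : ℝ => Real.sqrt (1 + b ^ 2 * u ^ 2)).inv₀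
        fun u => (Real.sqrt_pos.2 (by positivity)).ne')
    have hsub : ∫ t in (0 : ℝ)..R, (F ∘ sn b) t * Real.cosh (b * t) =
        ∫ u in sn b 0..sn b R, F u :=
      intervalIntegral.integral_comp_mul_deriv (fun t _ => hasDerivAt_sn b t)
        (by fun_prop : Continuous fun t => Real.cosh (b * t)).continuousOn hFc
    rw [sn, if_neg hb.ne', mul_zero, Real.sinh_zero, zero_div, ← ha] at hsub
    calc ∫ y in Ioi (0 : ℝ), y ^ (n - 1) • g y
        = ∫ y in Ioo (0 : ℝ) a, F y := by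
          rw [← integral_indicator measurableSet_Ioi, ← integral_indicator measurableSet_Ioo]
          refine integral_congr_ae (Eventually.of_forall fun y => ?_)
          simp only [hg, hF, indicator_apply, mem_Ioi, mem_Iio, mem_Ioo, smul_eq_mul]
          by_cases h0 : 0 < y <;> by_cases h1 : y < a <;> simp [h0, h1]
      _ = ∫ u in (0 : ℝ)..a, F u := by
          rw [intervalIntegral.integral_of_le ha0, integral_Ioc_eq_integral_Ioo]
      _ = ∫ t in (0 : ℝ)..R, (F ∘ sn b) t * Real.cosh (b * t) := hsub.symm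
      _ = ∫ t in (0 : ℝ)..R, sn b t ^ (n - 1) := by
          refine intervalIntegral.integral_congr fun t _ => ?_
          have hC : Real.sqrt (1 + b ^ 2 * sn b t ^ 2) = Real.cosh (b * t) := by
            rw [sn, if_neg hb.ne', div_pow, mul_div_cancel₀ _ (pow_ne_zero 2 hb.ne'),
              add_comm, ← Real.cosh_sq, Real.sqrt_sq (Real.cosh_pos _).le]
          simp only [hF, Function.comp_apply, hC]
          have := (Real.cosh_pos (b * t)).ne'
          field_simp
  rw [e3]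
  ring

/-- The geodesic through `y` along the normal goes to a line through the centre of the chart. -/
lemma hypChart_line (h : IsCH G D) {y ξ : Fin n → ℝ} (hξ : conorm G y ξ = 1) {x : Fin n → ℝ}
    (hp : pairing G y ξ (cd (D x) y) ^ 2 = 2 * D x y) :
    ∃ s : ℝ, hypChart G D b R y ξ x = s • normalVec G y ξ := by
  obtain ⟨ζ, hζ⟩ : ∃ ζ, ζ = Sharp.ucoord G D y x := ⟨_, rfl⟩
  obtain ⟨η, hη⟩ : ∃ η, η = normalVec G y ξ := ⟨_, rfl⟩
  have h1 : η ⬝ᵥ η = 1 := hη ▸ normalVec_dot h hξ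
  have h2 : (η ⬝ᵥ ζ) ^ 2 = ζ ⬝ᵥ ζ := by
    rw [hζ, hη, Sharp.ucoord_dot h, normalVec, neg_dotProduct, Sharp.ucoord, Sharp.frame_dot h,
      neg_sq, hp]
  have h3 : ζ = (η ⬝ᵥ ζ) • η := sub_eq_zero.1 (dotProduct_self_eq_zero.1 (by
    simp only [sub_dotProduct, dotProduct_sub, smul_dotProduct, dotProduct_smul, smul_eq_mul,
      dotProduct_comm ζ η, h1]
    linear_combination -h2))
  rw [hypChart, boost, radX, ← hζ, ← hη]
  generalize η ⬝ᵥ ζ = q at h3
  subst h3
  exact ⟨_, by rw [smul_smul, ← add_smul]⟩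

/-- Perimeter on one model sphere makes the set the ball it bounds. -/
theorem shapeH [NeZero n] (hn : 2 ≤ n) (h : IsCH G D) (hbend : Bend.BendCH G D b) (hb : 0 < b) (hR : 0 < R)
    {Ω : Set (Fin n → ℝ)} {o : Fin n → ℝ} {Rd : ℝ} {y ξ : Fin n → ℝ}
    {u : ℕ → (Fin n → ℝ) → ℝ} (hΩ : MeasurableSet Ω) (hV : 0 < volG G Ω)
    (happ : CH.Rigid.Approx G D Ω o Rd u)
    (hvol : Bend.unitBall n * modelVol n b R = volG G Ω) (hξ : conorm G y ξ = 1)
    (hon : OnHypSphere G D b R y ξ u) : IsometricH G b R Ω := by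
  obtain ⟨hΩK, hu, hlim⟩ := happ
  have hK : IsCompact {y | D o y ≤ Rd} := h.proper o Rd
  obtain ⟨V, hVd⟩ : ∃ V, V = volG G Ω := ⟨_, rfl⟩
  rw [← hVd] at hV hvol
  obtain ⟨r, hr⟩ : ∃ r, r = sn b R := ⟨_, rfl⟩
  have hr0 : 0 < r := hr ▸ Bend.sn_pos b hR
  unfold IsometricH
  rw [← hr]
  set Φ := hypChart G D b R y ξ
  have hΦ : ContDiff ℝ 1 Φ := contDiff_hypChart h y ξ
  have hbij : Function.Bijective Φ := hypChart_bijective h hb.ne' hξ
  have hfacts := fun x => det_hypChart (R := R) h hbend hb.ne' hξ x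
  have hbr : b ^ 2 * r ^ 2 = Real.sinh (b * R) ^ 2 := by
    rw [hr, sn, if_neg hb.ne', div_pow, mul_div_cancel₀ _ (pow_ne_zero 2 hb.ne')]
  have hd0 : ∀ x, 0 < |(fderiv ℝ Φ x).det| := fun x => (hfacts x).1
  have hdf : ∀ s : Set (Fin n → ℝ), ∀ x ∈ s, HasFDerivWithinAt Φ (fderiv ℝ Φ x) s x := fun s x _ =>
    ((hΦ.differentiable one_ne_zero x).hasFDerivAt).hasFDerivWithinAt
  have hopen : IsOpenMap Φ := by
    refine IsOpenMap.of_nhds_le fun x => ?_
    obtain ⟨L, hL⟩ : ∃ L : (Fin n → ℝ) ≃L[ℝ] (Fin n → ℝ),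
        (L : (Fin n → ℝ) →L[ℝ] (Fin n → ℝ)) = fderiv ℝ Φ x := by
      have hinj : Function.Injective (fderiv ℝ Φ x) := by
        refine (LinearMap.ker_eq_bot (f := (fderiv ℝ Φ x).toLinearMap)).1 ?_
        by_contra hk
        have := hd0 x
        rw [ContinuousLinearMap.det, LinearMap.det_eq_zero_iff_ker_ne_bot.2 hk, abs_zero] at this
        exact lt_irrefl _ this
      exact ⟨Six.Descent.equivOfInj _ hinj, Six.Descent.coe_equivOfInj _ hinj⟩
    have hstrict : HasStrictFDerivAt Φ (L : (Fin n → ℝ) →L[ℝ] (Fin n → ℝ)) x := by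
      rw [hL]; exact hΦ.contDiffAt.hasStrictFDerivAt one_ne_zero
    exact hstrict.map_nhds_eq_of_equiv.ge
  have hdot : Continuous fun z : Fin n → ℝ => z ⬝ᵥ z := continuous_id.dotProduct continuous_id
  have hnull : ∀ s : Set (Fin n → ℝ), MeasurableSet s → volume (Φ '' s) = 0 → volume s = 0 := by
    intro s hs hz
    rw [← lintegral_abs_det_fderiv_eq_addHaar_image volume hs (hdf _) hbij.1.injOn,
      lintegral_eq_zero_iff (show Measurable fun x => ENNReal.ofReal |(fderiv ℝ Φ x).det| from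
        (ContinuousLinearMap.continuous_det.comp
          (hΦ.continuous_fderiv one_ne_zero)).abs.measurable.ennreal_ofReal)] at hz
    have hf : ∀ᵐ x ∂(volume.restrict s), False := hz.mono fun x hx => by
      simp only [Pi.zero_apply, ENNReal.ofReal_eq_zero] at hx
      exact absurd (hd0 x) (not_lt.2 hx)
    rw [eventually_false_iff_eq_bot, ae_eq_bot, Measure.restrict_eq_zero] at hf
    exact hf
  set W : Set (Fin n → ℝ) := Φ ⁻¹' {z | z ⬝ᵥ z < r ^ 2}
  obtain ⟨η, hη⟩ : ∃ η, η = normalVec G y ξ := ⟨_, rfl⟩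
  have hη1 : η ⬝ᵥ η = 1 := hη ▸ normalVec_dot h hξ
  set L : Set (Fin n → ℝ) := {z | r ^ 2 ≤ z ⬝ᵥ z ∧ (η ⬝ᵥ z) ^ 2 = z ⬝ᵥ z}
  set U : Set (Fin n → ℝ) := {x | Φ x ⬝ᵥ Φ x ≠ r ^ 2 ∧ Φ x ∉ L}
  have hWo : IsOpen W := (isOpen_lt hdot continuous_const).preimage hΦ.continuous
  have hLc : IsClosed L := (isClosed_le continuous_const hdot).inter
    (isClosed_eq (by fun_prop) hdot)
  have hUo : IsOpen U := (isOpen_ne_fun (hdot.comp hΦ.continuous) continuous_const).inter
    (hLc.isOpen_compl.preimage hΦ.continuous)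
  have himg : Φ '' W = {z | z ⬝ᵥ z < r ^ 2} := Set.image_preimage_eq _ hbij.2
  have hS : volume Uᶜ = 0 := by
    refine hnull _ hUo.measurableSet.compl ?_
    refine measure_mono_null (t := ({z : Fin n → ℝ | z ⬝ᵥ z ≤ r ^ 2} \ {z | z ⬝ᵥ z < r ^ 2}) ∪
      (Submodule.span ℝ {η} : Set (Fin n → ℝ))) ?_ (measure_union_null ?_ ?_)
    · rintro z ⟨x, hx, rfl⟩
      rcases (not_and_or.1 (show ¬(Φ x ⬝ᵥ Φ x ≠ r ^ 2 ∧ Φ x ∉ L) from hx)) with hx | hx
      · have e : Φ x ⬝ᵥ Φ x = r ^ 2 := not_not.1 hx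
        exact Or.inl ⟨e.le, fun hlt : Φ x ⬝ᵥ Φ x < r ^ 2 => hlt.ne e⟩
      · have e : (η ⬝ᵥ Φ x) ^ 2 = Φ x ⬝ᵥ Φ x := (not_not.1 hx).2
        have h3 : Φ x = (η ⬝ᵥ Φ x) • η := sub_eq_zero.1 (dotProduct_self_eq_zero.1 (by
          simp only [sub_dotProduct, dotProduct_sub, smul_dotProduct, dotProduct_smul, smul_eq_mul,
            dotProduct_comm (Φ x) η, hη1]
          linear_combination -e))
        exact Or.inr (Submodule.mem_span_singleton.2 ⟨η ⬝ᵥ Φ x, h3.symm⟩)
    · rw [measure_sdiff (show {z : Fin n → ℝ | z ⬝ᵥ z < r ^ 2} ⊆ {z | z ⬝ᵥ z ≤ r ^ 2} from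
          fun z (hz : z ⬝ᵥ z < r ^ 2) => le_of_lt hz)
        (isOpen_lt hdot continuous_const).measurableSet.nullMeasurableSet
        (by rw [(CH.Rigid.volume_dot_ball hr0.le).2]; exact ENNReal.ofReal_ne_top),
        (CH.Rigid.volume_dot_ball hr0.le).1, (CH.Rigid.volume_dot_ball hr0.le).2, tsub_self]
    · refine Measure.addHaar_submodule volume _ fun htop => ?_
      have h1 := congrArg (fun p : Submodule ℝ (Fin n → ℝ) => Module.finrank ℝ p) htop
      simp only [finrank_top, Module.finrank_fin_fun] at h1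
      have h2 := finrank_span_le_card (R := ℝ) ({η} : Set (Fin n → ℝ))
      rw [h1, Set.toFinset_singleton, Finset.card_singleton] at h2
      omega
  -- locally full or locally null away from the sphere
  have hΩf : volume Ω ≠ ∞ := ((measure_mono hΩK).trans_lt hK.measure_lt_top).ne
  have hlim' : Tendsto (fun k => ∫⁻ z, ENNReal.ofReal |u k z - Ω.indicator 1 z|) atTop (𝓝 0) := by
    have h1 := ENNReal.tendsto_ofReal hlim
    rw [ENNReal.ofReal_zero] at h1
    refine h1.congr fun k => ofReal_integral_eq_lintegral_ofReal ?_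
      (Eventually.of_forall fun z => abs_nonneg _)
    refine ((?_ : Integrable (u k)).sub
      ((integrableOn_const (μ := volume) (C := (1 : ℝ)) hΩf).integrable_indicator hΩ)).abs
    simpa using (hu k).integrable hK (continuous_const (y := (1 : ℝ)))
  set Uin : Set (Fin n → ℝ) := {x | ∃ δ > 0, volume (Metric.ball x δ \ Ω) = 0}
  set Uout : Set (Fin n → ℝ) := {x | ∃ δ > 0, volume (Metric.ball x δ ∩ Ω) = 0}
  have hcover : U ⊆ Uin ∪ Uout := by
    intro x hx
    obtain ⟨ε, hε, hεU⟩ := Metric.nhds_basis_closedBall.mem_iff.1 (hUo.mem_nhds hx)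
    have hT : IsCompact (Metric.closedBall x (3 * (ε / 3))) := isCompact_closedBall _ _
    have hsub : Metric.closedBall x (3 * (ε / 3)) ⊆ U := by
      rw [mul_div_cancel₀ ε three_ne_zero]; exact hεU
    obtain ⟨C, hC0, hC⟩ := CH.Rigid.exists_opNorm_le h hT
    have h1 := hon _ hT fun z hz => ⟨fun hz0 => (hsub hz).1 (by
        have h3 := (hypChart_sq (R := R) h hb.ne' hξ z).2.1
        rw [hz0, zero_mul, sub_eq_zero, ← hbr] at h3
        exact mul_left_cancel₀ (pow_ne_zero 2 hb.ne') h3), fun hz0 hp => (hsub hz).2 (by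
        obtain ⟨-, h3, h4⟩ := hypChart_sq (R := R) h hb.ne' hξ z
        obtain ⟨q, hq⟩ := hypChart_line (b := b) (R := R) h hξ hp
        refine ⟨le_of_mul_le_mul_left ?_ (pow_pos hb 2), ?_⟩
        · have := mul_pos hz0 (show 0 < 2 * Real.cosh (b * R) + sphFun G D b R y ξ z by
            linarith [Real.cosh_pos (b * R)])
          show b ^ 2 * r ^ 2 ≤ b ^ 2 * (hypChart G D b R y ξ z ⬝ᵥ hypChart G D b R y ξ z)
          linarith
        · show (η ⬝ᵥ hypChart G D b R y ξ z) ^ 2 =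
            hypChart G D b R y ξ z ⬝ᵥ hypChart G D b R y ξ z
          rw [hq, ← hη]
          simp only [dotProduct_smul, smul_dotProduct, smul_eq_mul, hη1]
          ring)⟩
    have h2 := ENNReal.Tendsto.const_mul h1 (Or.inr (ENNReal.ofReal_ne_top (r := C)))
    rw [mul_zero] at h2
    have h3 : Tendsto (fun k => ∫⁻ z in Metric.closedBall x (3 * (ε / 3)),
        ENNReal.ofReal ‖fderiv ℝ (u k) z‖) atTop (𝓝 0) := by
      refine tendsto_of_tendsto_of_tendsto_of_le_of_le tendsto_const_nhds h2 (fun _ => zero_le)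
        fun k => ?_
      rw [← lintegral_const_mul' _ _ ENNReal.ofReal_ne_top]
      refine setLIntegral_mono' hT.isClosed.measurableSet fun z hz => ?_
      rw [← ENNReal.ofReal_mul hC0]
      exact ENNReal.ofReal_le_ofReal (hC _ z hz)
    rcases CH.Rigid.full_or_null hΩ (fun k => (hu k).1) hlim' x (by positivity : 0 < ε / 3) h3
      with h0 | h0
    · exact Or.inr ⟨ε / 3, by positivity, h0⟩
    · exact Or.inl ⟨ε / 3, by positivity, h0⟩
  have hin : IsOpen Uin := Metric.isOpen_iff.2 fun x ⟨δ, hδ, h0⟩ => ⟨δ, hδ, fun z hz => by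
    obtain ⟨ε, hε, hsub⟩ := Metric.isOpen_iff.1 Metric.isOpen_ball z hz
    exact ⟨ε, hε, measure_mono_null (sdiff_subset_sdiff_left hsub) h0⟩⟩
  have hout : IsOpen Uout := Metric.isOpen_iff.2 fun x ⟨δ, hδ, h0⟩ => ⟨δ, hδ, fun z hz => by
    obtain ⟨ε, hε, hsub⟩ := Metric.isOpen_iff.1 Metric.isOpen_ball z hz
    exact ⟨ε, hε, measure_mono_null (inter_subset_inter_left _ hsub) h0⟩⟩
  have hdisj : Disjoint Uin Uout := by
    refine Set.disjoint_left.2 fun x ⟨δ, hδ, h0⟩ ⟨δ', hδ', h0'⟩ => ?_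
    refine (Metric.measure_ball_pos volume x (lt_min hδ hδ')).ne' ?_
    refine measure_mono_null (fun z hz => ?_) (measure_union_null h0 h0')
    by_cases hzΩ : z ∈ Ω
    · exact Or.inr ⟨Metric.ball_subset_ball (min_le_right _ _) hz, hzΩ⟩
    · exact Or.inl ⟨Metric.ball_subset_ball (min_le_left _ _) hz, hzΩ⟩
  have hdisj' : Disjoint (Φ '' Uin) (Φ '' Uout) := (disjoint_image_iff hbij.1).2 hdisj
  have hpre : ∀ C : Set (Fin n → ℝ), (∀ z ∈ C, z ⬝ᵥ z ≠ r ^ 2 ∧ z ∉ L) →
      C ⊆ Φ '' Uin ∪ Φ '' Uout := by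
    intro C hC z hz
    obtain ⟨x, rfl⟩ := hbij.2 z
    rcases hcover (show x ∈ U from hC _ hz) with hh | hh
    · exact Or.inl ⟨x, hh, rfl⟩
    · exact Or.inr ⟨x, hh, rfl⟩
  have hfar : ∀ x, r ^ 2 < Φ x ⬝ᵥ Φ x → Φ x ∉ L → x ∈ Uout := by
    intro x hx hxL
    obtain ⟨M, hM⟩ := (hK.image hΦ.continuous).isBounded.subset_closedBall 0
    have hne : Φ x ≠ 0 := fun h0 => by
      rw [h0, dotProduct_zero] at hx
      linarith [pow_pos hr0 2]
    obtain ⟨t, ht⟩ : ∃ t, t = max 1 ((M + 1) / ‖Φ x‖) := ⟨_, rfl⟩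
    have hray : IsPreconnected ((fun t : ℝ => t • Φ x) '' Ici 1) :=
      isPreconnected_Ici.image _ (by fun_prop)
    have hoff : ∀ z ∈ (fun t : ℝ => t • Φ x) '' Ici 1, z ⬝ᵥ z ≠ r ^ 2 ∧ z ∉ L := by
      rintro z ⟨t, ht : 1 ≤ t, rfl⟩
      refine ⟨?_, fun hz => hxL ⟨hx.le, ?_⟩⟩
      · rw [smul_dotProduct, dotProduct_smul, smul_eq_mul, smul_eq_mul, ← mul_assoc]
        have : 1 * (Φ x ⬝ᵥ Φ x) ≤ t * t * (Φ x ⬝ᵥ Φ x) :=
          mul_le_mul_of_nonneg_right (by nlinarith) ((pow_pos hr0 2).trans hx).le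
        intro he
        linarith
      · have h2 := hz.2
        simp only [smul_dotProduct, dotProduct_smul, smul_eq_mul] at h2
        exact mul_left_cancel₀ (mul_pos (one_pos.trans_le ht) (one_pos.trans_le ht)).ne'
          (by linear_combination h2)
    have hmeet : ((fun t : ℝ => t • Φ x) '' Ici 1 ∩ Φ '' Uout).Nonempty := by
      refine ⟨t • Φ x, ⟨t, mem_Ici.2 (le_of_le_of_eq (le_max_left _ _) ht.symm), rfl⟩, ?_⟩
      obtain ⟨p, hp⟩ := hbij.2 (t • Φ x)
      refine ⟨p, ?_, hp⟩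
      have hpK : p ∈ {y | D o y ≤ Rd}ᶜ := fun hpK => by
        have h1 := hM ⟨p, hpK, rfl⟩
        rw [hp, Metric.mem_closedBall, dist_zero_right, norm_smul, Real.norm_eq_abs,
          abs_of_pos (by rw [ht]; positivity)] at h1
        have h2 : (M + 1) / ‖Φ x‖ * ‖Φ x‖ ≤ t * ‖Φ x‖ :=
          mul_le_mul_of_nonneg_right (ht ▸ le_max_right _ _) (norm_nonneg _)
        rw [div_mul_cancel₀ _ (norm_ne_zero_iff.2 hne)] at h2
        linarith
      obtain ⟨ε, hε, hsub⟩ := Metric.isOpen_iff.1 hK.isClosed.isOpen_compl p hpK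
      exact ⟨ε, hε, measure_mono_null (t := ∅) (fun z hz => (hsub hz.1 (hΩK hz.2)).elim)
        measure_empty⟩
    have hsub := hray.subset_left_of_subset_union (hopen _ hout) (hopen _ hin) hdisj'.symm
      ((hpre _ hoff).trans (union_comm _ _).subset) hmeet
    obtain ⟨x', hx', he⟩ := hsub ⟨1, Set.self_mem_Ici, one_smul _ _⟩
    exact hbij.1 he ▸ hx'
  have hlocnull : ∀ s : Set (Fin n → ℝ), s ⊆ Uout → volume (s ∩ Ω) = 0 := fun s hs =>
    measure_null_of_locally_null _ fun x hx => by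
      obtain ⟨δ, hδ, h0⟩ := hs hx.1
      exact ⟨_, inter_mem_nhdsWithin _ (Metric.ball_mem_nhds x hδ),
        measure_mono_null (fun z hz => show z ∈ Metric.ball x δ ∩ Ω from ⟨hz.2, hz.1.2⟩) h0⟩
  have hWsub : W ⊆ Uin := by
    have hballdich := hpre {z | z ⬝ᵥ z < r ^ 2} fun z (hz : z ⬝ᵥ z < r ^ 2) =>
      ⟨hz.ne, fun hzL => hz.not_ge hzL.1⟩
    rcases (({z : Fin n → ℝ | z ⬝ᵥ z < r ^ 2} ∩ Φ '' Uin)).eq_empty_or_nonempty with he | he
    · exfalso
      have hWout : W ⊆ Uout := by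
        intro x hx
        rcases hballdich (show Φ x ∈ _ from hx) with hh | ⟨x', hx', e⟩
        · exact absurd (show Φ x ∈ (∅ : Set (Fin n → ℝ)) from he ▸ ⟨hx, hh⟩) (notMem_empty _)
        · exact hbij.1 e ▸ hx'
      have hUout : U ⊆ Uout := fun x hx => by
        rcases lt_or_gt_of_ne hx.1 with hl | hg
        · exact hWout hl
        · exact hfar x hg hx.2
      have h0 : volume Ω = 0 := measure_mono_null (fun x hx => by
          by_cases hxU : x ∈ U
          · exact Or.inl ⟨hxU, hx⟩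
          · exact Or.inr hxU)
        (measure_union_null (hlocnull U hUout) hS)
      rw [hVd, volG, Measure.restrict_eq_zero.2 h0, integral_zero_measure] at hV
      exact lt_irrefl _ hV
    · have hsub := (CH.Rigid.isPreconnected_dot_ball hr0.le).subset_left_of_subset_union
        (hopen _ hin) (hopen _ hout) hdisj' hballdich he
      intro x hx
      obtain ⟨x', hx', e⟩ := hsub (show Φ x ∈ _ from hx)
      exact hbij.1 e ▸ hx'
  have hWΩ : volume (W \ Ω) = 0 := measure_null_of_locally_null _ fun x hx => by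
    obtain ⟨δ, hδ, h0⟩ := hWsub hx.1
    exact ⟨_, inter_mem_nhdsWithin _ (Metric.ball_mem_nhds x hδ),
      measure_mono_null (fun z hz => show z ∈ Metric.ball x δ \ Ω from ⟨hz.2, hz.1.2⟩) h0⟩
  have hΩW : volume (Ω \ W) = 0 := by
    refine measure_mono_null (fun x hx => ?_)
      (measure_union_null (hlocnull {x | r ^ 2 < Φ x ⬝ᵥ Φ x ∧ Φ x ∉ L}
        fun x hx => hfar x hx.1 hx.2) hS)
    by_cases hxU : x ∈ U
    · exact Or.inl ⟨⟨(lt_or_gt_of_ne hxU.1).resolve_left hx.2, hxU.2⟩, hx.1⟩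
    · exact Or.inr hxU
  have heq : Ω =ᵐ[volume] W := ae_eq_set.2 ⟨hΩW, hWΩ⟩
  -- the normalised determinant is one on the ball
  set j : (Fin n → ℝ) → ℝ := fun x => |(fderiv ℝ Φ x).det| / timeC b (Φ x) with hj
  have hjc : Continuous j :=
    ((ContinuousLinearMap.continuous_det.comp (hΦ.continuous_fderiv one_ne_zero)).abs).div
      ((contDiff_timeC b).continuous.comp hΦ.continuous) fun x => (timeC_pos b _).ne'
  have hdensm : Measurable fun x => ENNReal.ofReal (dens G x) :=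
    h.continuous_dens.measurable.ennreal_ofReal
  have hWd : ∫⁻ x in W, ENNReal.ofReal (dens G x) = ENNReal.ofReal V := by
    rw [← setLIntegral_congr heq, hVd, volG, ofReal_integral_eq_lintegral_ofReal
      ((h.continuous_dens.continuousOn.integrableOn_compact hK).mono_set hΩK)
      (Eventually.of_forall fun x => (h.dens_pos x).le)]
  have hWj : ∫⁻ x in W, ENNReal.ofReal (j x) = ENNReal.ofReal V := by
    rw [← hvol, ← lintegral_model_ball hb hR.le, ← hr, ← himg,
      lintegral_image_eq_lintegral_abs_det_fderiv_mul volume hWo.measurableSet (hdf _)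
        hbij.1.injOn]
    refine lintegral_congr fun x => ?_
    rw [← ENNReal.ofReal_mul (abs_nonneg _)]
    rfl
  have hle : ∀ x, j x ≤ dens G x := fun x => (hfacts x).2.1
  have haej : ∀ᵐ x ∂(volume.restrict W), ENNReal.ofReal (j x) = ENNReal.ofReal (dens G x) :=
    ae_eq_of_ae_le_of_lintegral_le (Eventually.of_forall fun x => ENNReal.ofReal_le_ofReal (hle x))
      (by rw [hWj]; exact ENNReal.ofReal_ne_top) hdensm.aemeasurable (by rw [hWd, hWj])
  have hjeq : EqOn j (dens G) W := by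
    refine Measure.eqOn_open_of_ae_eq (μ := (volume : Measure (Fin n → ℝ))) ?_ hWo
      hjc.continuousOn h.continuous_dens.continuousOn
    refine haej.mono fun x hx => ?_
    rwa [ENNReal.ofReal_eq_ofReal_iff (div_nonneg (abs_nonneg _) (timeC_pos b _).le)
      (h.dens_pos x).le] at hx
  refine ⟨W, Φ, hWo, hΦ, hbij, himg, fun x hx v => (hfacts x).2.2 (hjeq hx) v, heq, ?_⟩
  intro hΩo hreg
  refine Subset.antisymm ?_ ?_
  · intro x hx
    by_contra hxW
    -- an open set inside the closed ball lies in the open one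
    have hsmall : ∀ z ∈ Ω, Φ z ⬝ᵥ Φ z ≤ r ^ 2 := fun z hz => by
      by_contra hh
      rw [not_le] at hh
      exact (hΩo.inter ((isOpen_lt continuous_const hdot).preimage hΦ.continuous)).measure_ne_zero
        volume ⟨z, hz, hh⟩ (measure_mono_null (fun q hq => show q ∈ Ω \ W from
          ⟨hq.1, fun hq' : Φ q ⬝ᵥ Φ q < r ^ 2 => lt_asymm hq' hq.2⟩) hΩW)
    have hnx : Φ x ⬝ᵥ Φ x = r ^ 2 := le_antisymm (hsmall x hx) (not_lt.1 hxW)
    have hcont : Tendsto (fun t : ℝ => (1 + t) • Φ x) (𝓝[>] 0) (𝓝 (Φ x)) :=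
      (Continuous.tendsto' (by fun_prop) _ _ (by simp)).mono_left nhdsWithin_le_nhds
    obtain ⟨t, ⟨z, hz, hzt⟩, ht⟩ :=
      ((hcont.eventually (hopen.image_mem_nhds (hΩo.mem_nhds hx))).and self_mem_nhdsWithin).exists
    have hzC := hsmall z hz
    rw [hzt, smul_dotProduct, dotProduct_smul, hnx, smul_eq_mul, smul_eq_mul] at hzC
    have ht' : (0 : ℝ) < t := ht
    nlinarith [mul_pos ht' (pow_pos hr0 2)]
  · rw [← hreg, hWo.subset_interior_iff]
    intro x hx
    by_contra hxΩ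
    exact (hWo.inter isClosed_closure.isOpen_compl).measure_ne_zero volume ⟨x, hx, hxΩ⟩
      (measure_mono_null (fun z hz => show z ∈ W \ Ω from
        ⟨hz.1, fun hh => hz.2 (subset_closure hh)⟩) hWΩ)

end Vale.Agent.P219.CH.Relax.Rigid
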