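import Vale.Agent.P219.Relax.Rigid.Defs
import Vale.Agent.P219.Relax.PairRows

/-!
# P219: the slack of a pair of rows
-/

noncomputable section

open MeasureTheory Set Filter Topology Matrix
open scoped ENNReal

namespace Vale.Agent.P219.CH.Relax.Rigid

variable {n : ℕ} {G : (Fin n → ℝ) → Matrix (Fin n) (Fin n) ℝ}
  {D : (Fin n → ℝ) → (Fin n → ℝ) → ℝ} {u : (Fin n → ℝ) → ℝ} {w : ℝ × ℝ → ℝ}
  {kap : ℝ × ℝ × ℝ → ℝ} {b ρ ε : ℝ} {o : Fin n → ℝ} {R : ℝ}

lemma continuous_cutK (hw : ContDiff ℝ 1 w) (hk : Continuous kap) :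
    Continuous (cutK n ρ ε w kap) :=
  (continuous_sym hw).sub ((hk.sub continuous_const).max continuous_const)

/-- The weighted slack is paid by what the kernel loses. -/
theorem lintegral_slack_le (h : IsCH G D) (hb : Bend.BendCH G D b) (hb0 : 0 ≤ b)
    (hu : Comp {y | D o y ≤ R} u) (hw : ContDiff ℝ 1 w) (hk : Continuous kap)
    (hk0 : ∀ r c d, 0 ≤ kap (r, c, d)) (hε : 0 ≤ ε) :
    (∫⁻ x, (∫⁻ y, slackAt G D kap u b x y * ENNReal.ofReal (ijacB G D b x y) ∂Sharp.pm G u)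
        ∂Sharp.pm G u) ≤
      ENNReal.ofReal ((∫ z : (Fin n → ℝ) × (Fin n → ℝ), kerQ G D u w b ρ ε z.1 z.2
          ∂((Sharp.pm G u).prod (Sharp.pm G u))) -
        (∫ z : (Fin n → ℝ) × (Fin n → ℝ), Strict.kerK G D u (cutK n ρ ε w kap) b ε z.1 z.2
          ∂((Sharp.pm G u).prod (Sharp.pm G u))) + ε * per G u ^ 2) := by
  have hK := h.proper o R
  have := Sharp.isFiniteMeasure_pm h hK hu
  obtain ⟨μ, hμ⟩ : ∃ μ, μ = Sharp.pm G u := ⟨_, rfl⟩
  have : IsFiniteMeasure μ := hμ ▸ this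
  have hQ := integrable_kerQ (ρ := ρ) (ε := ε) h hb hu hw hb0
  have hC := Strict.integrable_kerK (ε := ε) h hb hu (continuous_cutK (n := n) (ρ := ρ) (ε := ε) hw hk) hb0
  have hS := Strict.integrable_kerK (ε := (0 : ℝ)) h hb hu hk hb0
  have hSm := Strict.measurable_kerK (s := b) (ε := (0 : ℝ)) h hu.1 hk
  have hP : μ.real univ = per G u := by
    rw [hμ, measureReal_def]; exact Sharp.pm_univ h hK hu
  rw [← hμ] at hQ hC hS ⊢
  have hnn : ∀ z : (Fin n → ℝ) × (Fin n → ℝ), 0 ≤ Strict.kerK G D u kap b 0 z.1 z.2 := fun z =>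
    mul_nonneg (by simpa using hk0 _ _ _) (ijacB_pos h b _ _).le
  have e : (∫⁻ x, (∫⁻ y, slackAt G D kap u b x y * ENNReal.ofReal (ijacB G D b x y) ∂μ) ∂μ) =
      ∫⁻ z : (Fin n → ℝ) × (Fin n → ℝ),
        ENNReal.ofReal (Strict.kerK G D u kap b 0 z.1 z.2) ∂μ.prod μ := by
    rw [lintegral_prod _ hSm.ennreal_ofReal.aemeasurable]
    refine lintegral_congr fun x => lintegral_congr fun y => ?_
    rw [slackAt, Strict.kerK, add_zero, ENNReal.ofReal_mul (hk0 _ _ _)]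
  rw [e, ← ofReal_integral_eq_lintegral_ofReal hS (Eventually.of_forall hnn)]
  refine ENNReal.ofReal_le_ofReal ?_
  have key := integral_mono hS ((hQ.sub hC).add (integrable_const (μ := μ.prod μ) ε))
    fun z => (?_ : Strict.kerK G D u kap b 0 z.1 z.2 ≤ _)
  · refine key.trans (le_of_eq ?_)
    simp only [Pi.add_apply, Pi.sub_apply]
    rw [integral_add (f := fun z : (Fin n → ℝ) × (Fin n → ℝ) => kerQ G D u w b ρ ε z.1 z.2 -
          Strict.kerK G D u (cutK n ρ ε w kap) b ε z.1 z.2) (hQ.sub hC) (integrable_const _),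
      integral_sub hQ hC, integral_const, ← univ_prod_univ, measureReal_prod_prod, hP, smul_eq_mul]
    ring
  · simp only [Pi.add_apply, Pi.sub_apply, Strict.kerK, kerQ, cutK, add_zero]
    obtain ⟨q, hq⟩ : ∃ q, q = ijacB G D b z.1 z.2 := ⟨_, rfl⟩
    rw [← hq]
    obtain ⟨kv, hkv⟩ : ∃ kv, kv = kap (b * Real.sqrt (2 * D z.1 z.2), Dir.scos G D u z.2 z.1,
      Dir.scos G D u z.1 z.2) := ⟨_, rfl⟩
    rw [← hkv]
    have hq0 : 0 ≤ q := hq ▸ (ijacB_pos h b _ _).le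
    have hq1 : q ≤ 1 := hq ▸ ijacB_le_one h hb _ _
    linarith [mul_le_mul_of_nonneg_right (le_max_left (kv - ε) 0) hq0,
      mul_le_of_le_one_right hε hq1]

end Vale.Agent.P219.CH.Relax.Rigid
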