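import Vale.Agent.P219.Relax.Rigid.Shape
import Vale.Agent.P219.Rigid.Sphere
import Vale.Agent.P219.Relax.SplitBend

/-!
# P219: vanishing slack puts the perimeter on one model sphere

`kap` is continuous and nonnegative and vanishes only on the contact of a model sphere with its
chords and on pairs looking straight at each other from at least the diameter apart. Boundary points
of least slack converge to one point; off its sphere and the outer part of its normal geodesic the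
slack is bounded below, so the perimeter there tends to zero.
-/

noncomputable section

open MeasureTheory Set Filter Topology Matrix
open scoped ENNReal

namespace Vale.Agent.P219.CH.Relax.Rigid

open CH.Rigid (cosAt cosAt_smul_pos cosAt_cd cosAt_mem)

variable {n : ℕ} {G : (Fin n → ℝ) → Matrix (Fin n) (Fin n) ℝ}
  {D : (Fin n → ℝ) → (Fin n → ℝ) → ℝ}

/-- A slack which vanishes only on the contact of the sphere of radius `ρ` in curvature `-1` and on
normal pairs at least the diameter apart. -/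
structure Contact (ρ : ℝ) (kap : ℝ × ℝ × ℝ → ℝ) : Prop where
  cont : Continuous kap
  nonneg : ∀ r c d, 0 ≤ kap (r, c, d)
  contact : ∀ r c d, 0 < r → c ∈ Icc (-1 : ℝ) 1 → d ∈ Icc (-1 : ℝ) 1 → kap (r, c, d) = 0 →
    Real.cosh ρ * (Real.cosh r - 1) = Real.sinh ρ * Real.sinh r * c ∨ (c = 1 ∧ 2 * ρ ≤ r)

/-- The slack of two boundary points of a competitor at scale `b`. -/
def slackAt (G : (Fin n → ℝ) → Matrix (Fin n) (Fin n) ℝ) (D : (Fin n → ℝ) → (Fin n → ℝ) → ℝ)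
    (kap : ℝ × ℝ × ℝ → ℝ) (u : (Fin n → ℝ) → ℝ) (b : ℝ) (x y : Fin n → ℝ) : ℝ≥0∞ :=
  ENNReal.ofReal
    (kap (b * Real.sqrt (2 * D x y), Dir.scos G D u y x, Dir.scos G D u x y))

/-- The slack seen from `y` with covector `ξ`, at `z` with cosine `d`. -/
def kapAt (G : (Fin n → ℝ) → Matrix (Fin n) (Fin n) ℝ) (D : (Fin n → ℝ) → (Fin n → ℝ) → ℝ)
    (kap : ℝ × ℝ × ℝ → ℝ) (b : ℝ) (q : (Fin n → ℝ) × (Fin n → ℝ)) (p : (Fin n → ℝ) × ℝ) : ℝ :=
  kap (b * Real.sqrt (2 * D q.1 p.1), cosAt G D p.1 q.1 q.2, p.2)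

lemma measurable_slackAt (h : IsCH G D) {kap : ℝ × ℝ × ℝ → ℝ} (hk : Continuous kap)
    {u : (Fin n → ℝ) → ℝ} (hu : ContDiff ℝ 1 u) (b : ℝ) :
    Measurable fun z : (Fin n → ℝ) × (Fin n → ℝ) => slackAt G D kap u b z.1 z.2 := by
  have hd := Gen.measurable_scos h hu
  have hc : Measurable fun z : (Fin n → ℝ) × (Fin n → ℝ) => Dir.scos G D u z.2 z.1 := by
    simpa only [Function.comp_def, Prod.fst_swap, Prod.snd_swap] using
      hd.comp (measurable_swap (α := Fin n → ℝ) (β := Fin n → ℝ))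
  exact (hk.measurable.comp
    ((((h.continuous_D.measurable.const_mul 2).sqrt).const_mul b).prodMk
      (hc.prodMk hd))).ennreal_ofReal

/-- If the slack against the product of the perimeters tends to zero, so does the slack weighted
by the Jacobian, and conversely on a compact set. -/
theorem tendsto_slack_of_weighted (h : IsCH G D) {kap : ℝ × ℝ × ℝ → ℝ}
    {b : ℝ} {o : Fin n → ℝ} {Rd : ℝ} {u : ℕ → (Fin n → ℝ) → ℝ}
    (hu : ∀ k, Comp {y | D o y ≤ Rd} (u k))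
    (hlim : Tendsto (fun k => ∫⁻ x, (∫⁻ y, slackAt G D kap (u k) b x y *
      ENNReal.ofReal (ijacB G D b x y) ∂Sharp.pm G (u k)) ∂Sharp.pm G (u k)) atTop (𝓝 0)) :
    Tendsto (fun k => ∫⁻ x, (∫⁻ y, slackAt G D kap (u k) b x y
      ∂Sharp.pm G (u k)) ∂Sharp.pm G (u k)) atTop (𝓝 0) := by
  have hK := h.proper o Rd
  rcases ({y | D o y ≤ Rd} : Set (Fin n → ℝ)).eq_empty_or_nonempty with he | hne
  · refine tendsto_const_nhds.congr fun k => ?_
    have hz : Sharp.pm G (u k) = 0 := by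
      have h1 := Sharp.ae_mem_pm h hK (hu k)
      simp only [show ∀ y, y ∈ ({y | D o y ≤ Rd} : Set (Fin n → ℝ)) ↔ False from fun y => by
        simp [he]] at h1
      rwa [eventually_false_iff_eq_bot, ae_eq_bot] at h1
    simp [hz]
  have hc : ContinuousOn (fun z : (Fin n → ℝ) × (Fin n → ℝ) => ijacB G D b z.1 z.2)
      ({y | D o y ≤ Rd} ×ˢ {y | D o y ≤ Rd}) := by
    refine Continuous.continuousOn ?_
    exact (((Six.continuous_det_mixedD h).div ((h.continuous_dens.comp continuous_fst).mul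
      (h.continuous_dens.comp continuous_snd))
        fun z => (mul_pos (h.dens_pos z.1) (h.dens_pos z.2)).ne')).mul
          (((continuous_const.mul ((Bend.contDiff_cshd (k := 1)).continuous.comp
            (continuous_const.mul h.continuous_D))) : Continuous
              fun z : (Fin n → ℝ) × (Fin n → ℝ) => Bend.sfac b (D z.1 z.2)).pow (n - 1))
  obtain ⟨z₀, hz₀, hmin⟩ := (hK.prod hK).exists_isMinOn (hne.prod hne) hc
  obtain ⟨m, hm⟩ : ∃ m, m = ijacB G D b z₀.1 z₀.2 := ⟨_, rfl⟩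
  have hm0 : 0 < m := hm ▸ ijacB_pos h b _ _
  have h0 : Tendsto (fun k => (∫⁻ x, (∫⁻ y, slackAt G D kap (u k) b x y *
      ENNReal.ofReal (ijacB G D b x y) ∂Sharp.pm G (u k)) ∂Sharp.pm G (u k)) / ENNReal.ofReal m)
      atTop (𝓝 0) := by
    simpa using ENNReal.Tendsto.div_const hlim (Or.inr (ENNReal.ofReal_pos.2 hm0).ne')
  refine tendsto_of_tendsto_of_tendsto_of_le_of_le tendsto_const_nhds h0 (fun _ => zero_le)
    fun k => ?_
  rw [ENNReal.le_div_iff_mul_le (Or.inl (ENNReal.ofReal_pos.2 hm0).ne')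
    (Or.inl ENNReal.ofReal_ne_top), ← lintegral_mul_const' _ _ ENNReal.ofReal_ne_top]
  refine lintegral_mono_ae ((Sharp.ae_mem_pm h hK (hu k)).mono fun x hx => ?_)
  rw [← lintegral_mul_const' _ _ ENNReal.ofReal_ne_top]
  refine lintegral_mono_ae ((Sharp.ae_mem_pm h hK (hu k)).mono fun y hy => ?_)
  exact mul_le_mul_right (ENNReal.ofReal_le_ofReal (hm ▸ hmin (mk_mem_prod hx hy))) _

/-- Some boundary covector of a competitor has slack at most the mean. -/
lemma exists_low_pairH [NeZero n] (h : IsCH G D) {Kc : Set (Fin n → ℝ)} (hKc : IsCompact Kc)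
    {u : (Fin n → ℝ) → ℝ} (hu : Comp Kc u) (hP : 0 < per G u) {kap : ℝ × ℝ × ℝ → ℝ}
    (hk : Continuous kap) (b : ℝ) :
    ∃ x ξ, x ∈ Kc ∧ conorm G x ξ = 1 ∧
      (∀ z, cosAt G D z x ξ = Dir.scos G D u z x) ∧
      (∫⁻ y, slackAt G D kap u b x y ∂Sharp.pm G u) * ENNReal.ofReal (per G u) ≤
        ∫⁻ x, (∫⁻ y, slackAt G D kap u b x y ∂Sharp.pm G u) ∂Sharp.pm G u := by
  have := Sharp.isFiniteMeasure_pm h hKc hu
  have hm := measurable_slackAt h hk hu.1 b
  have huniv : Sharp.pm G u univ = ENNReal.ofReal (per G u) := by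
    rw [← Sharp.pm_univ h hKc hu, ENNReal.ofReal_toReal (measure_ne_top _ _)]
  have hne : Sharp.pm G u ≠ 0 := fun h0 => by
    simp [h0] at huniv
    linarith
  have hgood : ∀ᵐ y ∂Sharp.pm G u, y ∈ Kc ∧ 0 < conorm G y (cd u y) := by
    refine (Sharp.ae_mem_pm h hKc hu).and ?_
    rw [Sharp.pm, ae_withDensity_iff
      (Sharp.continuous_weight h hu.1).measurable.ennreal_ofReal]
    refine Eventually.of_forall fun y hy => lt_of_le_of_ne (conorm_nonneg _ _) fun h0 => ?_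
    exact hy (by simp [← h0])
  have hgm : Measurable fun x => ∫⁻ y, slackAt G D kap u b x y ∂Sharp.pm G u :=
    hm.lintegral_prod_right'
  obtain ⟨x, hx, hle⟩ := exists_notMem_null_le_laverage hne hgm.aemeasurable (ae_iff.1 hgood)
  simp only [mem_ofPred_eq, not_not] at hx
  have hc0 : 0 < (conorm G x (cd u x))⁻¹ := inv_pos.2 hx.2
  refine ⟨x, (conorm G x (cd u x))⁻¹ • cd u x, hx.1, ?_, fun z => ?_, ?_⟩
  · rw [h.conorm_smul, abs_of_pos hc0, inv_mul_cancel₀ hx.2.ne']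
  · rw [cosAt_smul_pos h hc0, cosAt_cd]
  · rw [laverage_eq, huniv] at hle
    exact (mul_le_mul' hle le_rfl).trans_eq
      (ENNReal.div_mul_cancel (ENNReal.ofReal_pos.2 hP).ne' ENNReal.ofReal_ne_top)

/-- A zero of the slack lies on the model sphere or on the normal geodesic outside it. -/
lemma sphFun_eq_zero (h : IsCH G D) {b R : ℝ} (hb : 0 < b) {kap : ℝ × ℝ × ℝ → ℝ}
    (hk : Contact (b * R) kap) {y ξ z : Fin n → ℝ} (hyz : y ≠ z) (hξ : conorm G y ξ = 1) {d : ℝ}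
    (hd : d ∈ Icc (-1 : ℝ) 1) (h0 : kapAt G D kap b (y, ξ) (z, d) = 0) :
    sphFun G D b R y ξ z = 0 ∨
      (0 ≤ sphFun G D b R y ξ z ∧ pairing G y ξ (cd (D z) y) ^ 2 = 2 * D z y) := by
  have hD := Six.dist_pos h hyz
  obtain ⟨r, hr⟩ : ∃ r, r = Real.sqrt (2 * D y z) := ⟨_, rfl⟩
  have hr0 : 0 < r := hr ▸ Real.sqrt_pos.2 (by linarith)
  have hr2 : r ^ 2 = 2 * D y z := hr ▸ Real.sq_sqrt (by linarith)
  have hsym : D z y = D y z := Sharp.dist_symm h z y
  have hc : cosAt G D z y ξ * r = -pairing G y ξ (cd (D z) y) := by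
    rw [cosAt, hξ, one_mul, hsym, ← hr, div_mul_cancel₀ _ hr0.ne']
  have e : 2 * b ^ 2 * D z y = (b * r) ^ 2 := by rw [hsym, mul_pow, hr2]; ring
  have hS : Bend.sfac b (D z y) * (b * r) = Real.sinh (b * r) := by
    rw [show D z y = r ^ 2 / 2 by rw [hsym, hr2]; ring]
    exact sfac_sq b r
  have hF : sphFun G D b R y ξ z = Real.cosh (b * R) * (Real.cosh (b * r) - 1) -
      Real.sinh (b * R) * Real.sinh (b * r) * cosAt G D z y ξ := by
    rw [sphFun, e, Bend.csh_sq, ← hS]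
    linear_combination (b * Real.sinh (b * R) * Bend.sfac b (D z y)) * hc
  rcases hk.contact _ _ _ (mul_pos hb hr0) (cosAt_mem h z y ξ) hd
    (by simpa [kapAt, ← hr] using h0) with key | ⟨hc1, hge⟩
  · exact Or.inl (by rw [hF]; linarith)
  refine Or.inr ⟨?_, ?_⟩
  · obtain ⟨q, hq⟩ : ∃ q, q = b * r / 2 := ⟨_, rfl⟩
    have e1 : Real.cosh (b * R) * (Real.cosh (b * r) - 1) - Real.sinh (b * R) * Real.sinh (b * r) =
        2 * Real.sinh q * Real.sinh (q - b * R) := by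
      rw [show b * r = 2 * q by rw [hq]; ring, Real.cosh_two_mul, Real.sinh_two_mul, Real.sinh_sub]
      linear_combination Real.cosh (b * R) * Real.cosh_sq q
    rw [hF, hc1, mul_one, e1]
    exact mul_nonneg (mul_nonneg zero_le_two (Real.sinh_nonneg_iff.2 (hq ▸ by positivity)))
      (Real.sinh_nonneg_iff.2 (by linarith))
  · rw [hc1, one_mul] at hc
    rw [show pairing G y ξ (cd (D z) y) = -r by linarith, neg_sq, hr2, hsym]

/-- Vanishing slack puts the perimeter on one model sphere. -/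
theorem sphereH [NeZero n] (h : IsCH G D) {b R : ℝ} (hb : 0 < b) {kap : ℝ × ℝ × ℝ → ℝ}
    (hk : Contact (b * R) kap) {o : Fin n → ℝ} {Rd c : ℝ} {u : ℕ → (Fin n → ℝ) → ℝ}
    (hu : ∀ k, Comp {y | D o y ≤ Rd} (u k)) (hc : 0 < c) (hper : ∀ k, c ≤ per G (u k))
    (hslack : Tendsto (fun k => ∫⁻ x, (∫⁻ y, slackAt G D kap (u k) b x y
      ∂Sharp.pm G (u k)) ∂Sharp.pm G (u k)) atTop (𝓝 0)) :
    ∃ (y ξ : Fin n → ℝ) (φ : ℕ → ℕ), StrictMono φ ∧ conorm G y ξ = 1 ∧
      OnHypSphere G D b R y ξ (u ∘ φ) := by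
  have hKc := h.proper o Rd
  obtain ⟨ψ, hψ, hψle⟩ := extraction_forall_of_eventually'
    (P := fun m k => (∫⁻ x, (∫⁻ y, slackAt G D kap (u k) b x y ∂Sharp.pm G (u k))
      ∂Sharp.pm G (u k)) ≤ ENNReal.ofReal (1 / ((m : ℝ) + 1)))
    fun m => eventually_atTop.1 (hslack.eventually
      (eventually_le_nhds (ENNReal.ofReal_pos.2 (by positivity : (0 : ℝ) < 1 / ((m : ℝ) + 1)))))
  have hpts : ∀ m : ℕ, ∃ x ξ, D o x ≤ Rd ∧ conorm G x ξ = 1 ∧
      (∀ z, cosAt G D z x ξ = Dir.scos G D (u (ψ m)) z x) ∧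
      ∫⁻ y, slackAt G D kap (u (ψ m)) b x y ∂Sharp.pm G (u (ψ m)) ≤
        ENNReal.ofReal (1 / ((m : ℝ) + 1) / c) := fun m => by
    obtain ⟨x, ξ, hx, hξ, hcos, hle⟩ := exists_low_pairH h hKc (hu (ψ m))
      (hc.trans_le (hper _)) hk.cont b
    refine ⟨x, ξ, hx, hξ, hcos, ?_⟩
    rw [ENNReal.ofReal_div_of_pos hc, ENNReal.le_div_iff_mul_le
      (Or.inl (ENNReal.ofReal_pos.2 hc).ne') (Or.inl ENNReal.ofReal_ne_top)]
    exact (mul_le_mul' le_rfl (ENNReal.ofReal_le_ofReal (hper _))).trans (hle.trans (hψle m))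
  choose xs ξs hxs hξs hcos hlow using hpts
  have hT : IsCompact ((fun z : (Fin n → ℝ) × (Fin n → ℝ) × ℝ => (z.1, z.2.1)) ''
      Dir.paramSet G D o Rd {0}) :=
    (Dir.isCompact_paramSet h o Rd isCompact_singleton).image (by fun_prop)
  obtain ⟨⟨y, ξ⟩, -, φ, hφ, hφlim⟩ := hT.tendsto_subseq (x := fun k => (xs k, ξs k)) fun k =>
    ⟨(xs k, ξs k, 0), ⟨hxs k, (hξs k).le, rfl⟩, rfl⟩
  have hξ : conorm G y ξ = 1 := by
    refine tendsto_nhds_unique ((h.continuous_conorm.tendsto (y, ξ)).comp hφlim) ?_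
    simp [Function.comp_def, hξs]
  refine ⟨y, ξ, ψ ∘ φ, hψ.comp hφ, hξ, fun T hT hne => ?_⟩
  rcases T.eq_empty_or_nonempty with rfl | hTne
  · simp
  have hyT : ∀ z ∈ T, y ≠ z := fun z hz he => by
    subst he
    refine (hne y hz).1 ?_
    have h0 : conorm G y (cd (D y) y) = 0 := by
      rw [conorm, h.eikonal, h.dist_self, mul_zero, Real.sqrt_zero]
    have h2 := h.abs_pairing_le y ξ (cd (D y) y)
    rw [h0, mul_zero, abs_nonpos_iff] at h2
    simp [sphFun, h.dist_self, h2, Bend.csh_zero]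
  have hTd := hT.prod (isCompact_Icc (a := (-1 : ℝ)) (b := 1))
  have hcat : ∀ p ∈ T ×ˢ Icc (-1 : ℝ) 1, ContinuousAt
      (fun w : ((Fin n → ℝ) × (Fin n → ℝ)) × ((Fin n → ℝ) × ℝ) => kapAt G D kap b w.1 w.2)
      ((y, ξ), p) := by
    rintro ⟨z, d⟩ ⟨hz, -⟩
    have hD' : 0 < D z y := Six.dist_pos h (hyT z hz).symm
    have hy : Continuous fun w : ((Fin n → ℝ) × (Fin n → ℝ)) × ((Fin n → ℝ) × ℝ) => w.1.1 := by
      fun_prop
    have hx : Continuous fun w : ((Fin n → ℝ) × (Fin n → ℝ)) × ((Fin n → ℝ) × ℝ) => w.1.2 := by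
      fun_prop
    have hz' : Continuous fun w : ((Fin n → ℝ) × (Fin n → ℝ)) × ((Fin n → ℝ) × ℝ) => w.2.1 := by
      fun_prop
    have hd : Continuous fun w : ((Fin n → ℝ) × (Fin n → ℝ)) × ((Fin n → ℝ) × ℝ) => w.2.2 := by
      fun_prop
    have hr : Continuous fun w : ((Fin n → ℝ) × (Fin n → ℝ)) × ((Fin n → ℝ) × ℝ) =>
        b * Real.sqrt (2 * D w.1.1 w.2.1) :=
      continuous_const.mul (continuous_const.mul (h.continuous_D.comp (hy.prodMk hz'))).sqrt
    have hcs : ContinuousAt (fun w : ((Fin n → ℝ) × (Fin n → ℝ)) × ((Fin n → ℝ) × ℝ) =>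
        cosAt G D w.2.1 w.1.1 w.1.2) ((y, ξ), (z, d)) := by
      unfold cosAt
      refine ContinuousAt.div ?_ ((h.continuous_conorm.comp (hy.prodMk hx)).mul
        (continuous_const.mul (h.continuous_D.comp (hz'.prodMk hy))).sqrt).continuousAt ?_
      · exact (h.continuous_pairing.comp (hy.prodMk (hx.prodMk
          ((Sharp.contDiff_logCovector h).continuous.comp (hy.prodMk hz'))))).neg.continuousAt
      · simp only
        rw [hξ, one_mul]
        positivity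
    exact hk.cont.continuousAt.comp (hr.continuousAt.prodMk (hcs.prodMk hd.continuousAt))
  have hpos : ∀ p ∈ T ×ˢ Icc (-1 : ℝ) 1, 0 < kapAt G D kap b (y, ξ) p := fun p hp =>
    lt_of_le_of_ne (hk.nonneg _ _ _) fun h0 => by
      obtain ⟨hne0, hne1⟩ := hne p.1 hp.1
      rcases sphFun_eq_zero h hb hk (hyT p.1 hp.1) hξ hp.2 h0.symm with h1 | ⟨h1, h2⟩
      · exact hne0 h1
      · exact hne1 (lt_of_le_of_ne h1 (Ne.symm hne0)) h2
  obtain ⟨p₀, hp₀, hmin⟩ := hTd.exists_isMinOn (hTne.prod ⟨0, by norm_num, by norm_num⟩)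
    (f := kapAt G D kap b (y, ξ)) fun p hp =>
      ((hcat p hp).comp_of_eq
        (continuousAt_const.prodMk continuousAt_id) rfl).continuousWithinAt
  obtain ⟨m, hm⟩ : ∃ m, m = kapAt G D kap b (y, ξ) p₀ / 2 := ⟨_, rfl⟩
  have hm0 : 0 < m := hm ▸ half_pos (hpos p₀ hp₀)
  have hnear : ∀ᶠ q : (Fin n → ℝ) × (Fin n → ℝ) in 𝓝 (y, ξ), ∀ p ∈ T ×ˢ Icc (-1 : ℝ) 1,
      m < kapAt G D kap b q p := by
    refine hTd.eventually_forall_of_forall_eventually fun p hp => ?_
    refine (hcat p hp).eventually (eventually_gt_nhds ?_)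
    rw [hm]
    have := hmin hp
    simp only [mem_setOf_eq] at this
    linarith [hpos p₀ hp₀]
  have hsmall : Tendsto (fun k => 1 / ((φ k : ℝ) + 1)) atTop (𝓝 0) :=
    (tendsto_one_div_add_atTop_nhds_zero_nat).comp hφ.tendsto_atTop
  have hbound : ∀ᶠ k in atTop, ENNReal.ofReal m *
      (∫⁻ x in T, ENNReal.ofReal (conorm G x (cd (u ((ψ ∘ φ) k)) x) * dens G x)) ≤
        ENNReal.ofReal (1 / ((φ k : ℝ) + 1) / c) := by
    filter_upwards [hφlim.eventually hnear] with k hk'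
    have e : ∫⁻ x in T, ENNReal.ofReal (conorm G x (cd (u ((ψ ∘ φ) k)) x) * dens G x) =
        Sharp.pm G (u (ψ (φ k))) T := by
      rw [Sharp.pm, withDensity_apply _ hT.isClosed.measurableSet]
      rfl
    rw [e, ← setLIntegral_const]
    refine le_trans (setLIntegral_mono' hT.isClosed.measurableSet fun z hz => ?_)
      ((setLIntegral_le_lintegral _ _).trans (hlow (φ k)))
    have hg := hk' (z, Dir.scos G D (u (ψ (φ k))) (xs (φ k)) z) ⟨hz, Gen.scos_mem_Icc h _ _ _⟩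
    simp only [Function.comp_apply, kapAt, hcos] at hg
    exact ENNReal.ofReal_le_ofReal hg.le
  have hlim0 : Tendsto (fun k => ENNReal.ofReal (1 / ((φ k : ℝ) + 1) / c) / ENNReal.ofReal m)
      atTop (𝓝 0) := by
    have h1 := ENNReal.tendsto_ofReal (hsmall.div_const c)
    rw [zero_div, ENNReal.ofReal_zero] at h1
    simpa using ENNReal.Tendsto.div_const h1 (Or.inr (ENNReal.ofReal_pos.2 hm0).ne')
  refine tendsto_of_tendsto_of_tendsto_of_le_of_le' tendsto_const_nhds hlim0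
    (Eventually.of_forall fun _ => zero_le) (hbound.mono fun k hk => ?_)
  rw [ENNReal.le_div_iff_mul_le (Or.inl (ENNReal.ofReal_pos.2 hm0).ne')
    (Or.inl ENNReal.ofReal_ne_top), mul_comm]
  exact hk

/-- Vanishing slack of competitors converging to `Ω` makes it an isometric copy of a model ball. -/
theorem isometricH_of_slack [NeZero n] (hn : 2 ≤ n) (h : IsCH G D) {b R : ℝ} (hbend : Bend.BendCH G D b)
    (hb : 0 < b) (hR : 0 < R) {kap : ℝ × ℝ × ℝ → ℝ} (hk : Contact (b * R) kap)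
    {Ω : Set (Fin n → ℝ)} (hΩ : MeasurableSet Ω) (hV : 0 < volG G Ω)
    (hvol : Bend.unitBall n * modelVol n b R = volG G Ω) {o : Fin n → ℝ} {Rd c : ℝ}
    {u : ℕ → (Fin n → ℝ) → ℝ} (happ : CH.Rigid.Approx G D Ω o Rd u) (hc : 0 < c)
    (hper : ∀ k, c ≤ per G (u k))
    (hslack : Tendsto (fun k => ∫⁻ x, (∫⁻ y, slackAt G D kap (u k) b x y *
      ENNReal.ofReal (ijacB G D b x y) ∂Sharp.pm G (u k)) ∂Sharp.pm G (u k)) atTop (𝓝 0)) :
    IsometricH G b R Ω := by
  obtain ⟨hΩK, hu, hlim⟩ := happ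
  obtain ⟨y, ξ, φ, hφ, hξ, hon⟩ :=
    sphereH h hb hk hu hc hper (tendsto_slack_of_weighted h hu hslack)
  exact shapeH hn h hbend hb hR hΩ hV ⟨hΩK, fun k => hu (φ k), hlim.comp hφ.tendsto_atTop⟩ hvol hξ hon

end Vale.Agent.P219.CH.Relax.Rigid
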